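import Vale.Agent.P240.Pinned.PSL2
import Vale.Agent.P240.Robinson.Components

/-!
# Components `PSL(2, q)` at the prime two
-/

set_option linter.unusedSectionVars false

open scoped Classical

noncomputable section

namespace Vale.Agent.P240

theorem card_mapAut {A B : Type} [Group A] [Group B] (e : A ≃* B) (E : Subgroup A) :
    Nat.card (E.map e.toMonoidHom) = Nat.card E :=
  Nat.card_congr (E.equivMapOfInjective _ e.injective).symm.toEquiv

/-- A cycle in the incidence graph of the images of a four-group and their subgroups of order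
two. -/
theorem exists_graph_cycle {A : Type} [Group A] [Finite A] {E : Subgroup A} (hE : IsElem 2 E)
    (hc : Nat.card E = 4)
    (hother : ∀ x ∈ E, x ≠ 1 → ∃ δ : MulAut A, δ x = x ∧ E.map δ.toMonoidHom ≠ E)
    (k : Type) [Field k] :
    ∃ z ∈ CC k (elemAbelianSubgroups 2 A) 2, bd k (Subgroup A) z = 0 ∧
      ∃ σ ∈ z.support, E ∈ σ ∧ ∀ F ∈ σ, F ≤ E := by
  let : Fintype A := Fintype.ofFinite A
  let : Fintype (Subgroup A) := Fintype.ofFinite _
  set V : Finset (Subgroup A) :=
    Finset.univ.filter (fun E' => ∃ α : MulAut A, E.map α.toMonoidHom = E') with hV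
  set Pv : Finset (Subgroup A) :=
    Finset.univ.filter (fun P => Nat.card P = 2 ∧ ∃ E' ∈ V, P ≤ E') with hPv
  set Ed : Finset (Subgroup A × Subgroup A) := (Pv ×ˢ V).filter (fun e => e.1 ≤ e.2) with hEd
  have hVel : ∀ E' ∈ V, IsElem 2 E' ∧ Nat.card E' = 4 := by
    intro E' hE'
    obtain ⟨α, rfl⟩ := (Finset.mem_filter.1 hE').2
    exact ⟨hE.map _, (card_mapAut α E).trans hc⟩
  have hEd' : ∀ e ∈ Ed, Nat.card e.1 = 2 ∧ e.2 ∈ V ∧ e.1 < e.2 := by
    intro e he
    obtain ⟨h1, h2⟩ := Finset.mem_filter.1 he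
    obtain ⟨h3, h4⟩ := Finset.mem_product.1 h1
    refine ⟨(Finset.mem_filter.1 h3).2.1, h4, lt_of_le_of_ne h2 fun e' => ?_⟩
    have := (Finset.mem_filter.1 h3).2.1
    rw [e', (hVel _ h4).2] at this
    omega
  -- each four-group has three edges
  have hdegV : ∀ E' ∈ V, 3 ≤ (Pv.filter (fun P => P ≤ E')).card := by
    intro E' hE'
    obtain ⟨hel, hcard⟩ := hVel E' hE'
    set T := (Finset.univ : Finset A).filter (fun x => x ∈ E' ∧ x ≠ 1) with hT
    have hT3 : T.card = 3 := by
      have : T = ((Finset.univ : Finset A).filter (fun x => x ∈ E')).erase 1 := by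
        ext x; simp [hT, and_comm]
      rw [this, Finset.card_erase_of_mem (by simp)]
      have : ((Finset.univ : Finset A).filter (fun x => x ∈ E')).card = 4 := by
        rw [← hcard, Nat.card_eq_fintype_card, Fintype.card_subtype]
      omega
    have hord : ∀ x ∈ T, orderOf x = 2 := fun x hx =>
      orderOf_eq_prime (hel.2 x (Finset.mem_filter.1 hx).2.1) (Finset.mem_filter.1 hx).2.2
    rw [← hT3]
    refine Finset.card_le_card_of_injOn (fun x => Subgroup.zpowers x) (fun x hx => ?_) ?_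
    · have hle : Subgroup.zpowers x ≤ E' := Subgroup.zpowers_le.2 (Finset.mem_filter.1 hx).2.1
      exact Finset.mem_filter.2 ⟨Finset.mem_filter.2 ⟨Finset.mem_univ _,
        by rw [Nat.card_zpowers, hord x hx], E', hE', hle⟩, hle⟩
    · intro x hx y hy e
      have hy' : y ∈ Subgroup.zpowers x :=
        (show Subgroup.zpowers x = Subgroup.zpowers y from e) ▸ Subgroup.mem_zpowers y
      obtain ⟨n, hn⟩ := Subgroup.mem_zpowers_iff.1 hy'
      have hy1 := (Finset.mem_filter.1 hy).2.2
      rcases Int.even_or_odd n with ⟨m, hm⟩ | ⟨m, hm⟩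
      · exfalso
        refine hy1 ?_
        rw [← hn, hm, ← two_mul, zpow_mul, zpow_two,
          ← pow_two, hel.2 x (Finset.mem_filter.1 hx).2.1, one_zpow]
      · rw [← hn, hm, zpow_add_one, zpow_mul, zpow_two,
          ← pow_two, hel.2 x (Finset.mem_filter.1 hx).2.1, one_zpow, one_mul]
  -- each subgroup of order two has two edges
  have hdegP : ∀ P ∈ Pv, 2 ≤ (V.filter (fun E' => P ≤ E')).card := by
    intro P hP
    obtain ⟨hP2, E', hE', hle⟩ := (Finset.mem_filter.1 hP).2
    obtain ⟨α, rfl⟩ := (Finset.mem_filter.1 hE').2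
    obtain ⟨y, hy, hy1⟩ := (Subgroup.bot_or_exists_ne_one P).resolve_left fun e => by
      rw [e, Subgroup.card_bot] at hP2; omega
    obtain ⟨x, hx, rfl⟩ := hle hy
    change α x ∈ P at hy
    change α x ≠ 1 at hy1
    obtain ⟨δ, hδx, hδE⟩ := hother x hx fun e => hy1 (by rw [e, map_one])
    have hP' : P = Subgroup.zpowers (α x) := by
      have hle' : Subgroup.zpowers (α x) ≤ P := Subgroup.zpowers_le.2 hy
      refine (Subgroup.eq_of_le_of_card_ge hle' ?_).symm
      rw [hP2, Nat.card_zpowers, orderOf_eq_prime (p := 2) (by rw [← map_pow, hE.2 x hx, map_one]) hy1]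
    have hE2 : E.map (α * δ).toMonoidHom ∈ V :=
      Finset.mem_filter.2 ⟨Finset.mem_univ _, α * δ, rfl⟩
    have hne : E.map α.toMonoidHom ≠ E.map (α * δ).toMonoidHom := by
      intro e
      rw [show (α * δ).toMonoidHom = α.toMonoidHom.comp δ.toMonoidHom from rfl,
        ← Subgroup.map_map] at e
      exact hδE (Subgroup.map_injective α.injective e).symm
    rw [← Finset.card_pair hne]
    refine Finset.card_le_card fun F hF => ?_
    rcases Finset.mem_insert.1 hF with rfl | hF
    · exact Finset.mem_filter.2 ⟨hE', hle⟩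
    · rw [Finset.mem_singleton] at hF
      subst hF
      refine Finset.mem_filter.2 ⟨hE2, ?_⟩
      rw [hP', Subgroup.zpowers_le]
      exact ⟨x, hx, by simp [MulAut.mul_apply, hδx]⟩
  have hc1 : 3 * V.card ≤ Ed.card := by
    rw [hEd, Finset.card_filter (fun e : Subgroup A × Subgroup A => e.1 ≤ e.2) (Pv ×ˢ V),
      Finset.sum_product_right, mul_comm]
    have : ∑ E' ∈ V, 3 ≤ ∑ E' ∈ V, ∑ P ∈ Pv, if P ≤ E' then 1 else 0 :=
      Finset.sum_le_sum fun E' hE' => (hdegV E' hE').trans (le_of_eq (Finset.card_filter _ _))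
    rwa [Finset.sum_const, smul_eq_mul] at this
  have hc2 : 2 * Pv.card ≤ Ed.card := by
    rw [hEd, Finset.card_filter (fun e : Subgroup A × Subgroup A => e.1 ≤ e.2) (Pv ×ˢ V),
      Finset.sum_product, mul_comm]
    have : ∑ P ∈ Pv, 2 ≤ ∑ P ∈ Pv, ∑ E' ∈ V, if P ≤ E' then 1 else 0 :=
      Finset.sum_le_sum fun P hP => (hdegP P hP).trans (le_of_eq (Finset.card_filter _ _))
    rwa [Finset.sum_const, smul_eq_mul] at this
  have hEV : E ∈ V := Finset.mem_filter.2 ⟨Finset.mem_univ _, 1, Subgroup.map_id E⟩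
  have hVpos : 0 < V.card := Finset.card_pos.2 ⟨E, hEV⟩
  set W : Finset (Subgroup A) := Pv ∪ V with hW
  have hlt : W.card < Ed.card := by
    have := Finset.card_union_le Pv V
    rw [← hW] at this
    omega
  let mkz : (Ed → k) →ₗ[k] (Finset (Subgroup A) →₀ k) :=
    ∑ e : Ed, (Finsupp.lsingle ({e.1.1, e.1.2} : Finset (Subgroup A))).comp (LinearMap.proj e)
  let L : (Ed → k) →ₗ[k] (W → k) := LinearMap.pi fun x =>
    (Finsupp.lapply ({x.1} : Finset (Subgroup A))).comp ((bd k (Subgroup A)).comp mkz)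
  have hker : LinearMap.ker L ≠ ⊥ := LinearMap.ker_ne_bot_of_finrank_lt (by simpa using hlt)
  obtain ⟨g, hg, hgne⟩ := Submodule.exists_mem_ne_zero_of_ne_bot hker
  have hmk : mkz g = ∑ e : Ed, Finsupp.single ({e.1.1, e.1.2} : Finset (Subgroup A)) (g e) := by
    simp [mkz]
  set z := mkz g with hz
  have hchain : ∀ e ∈ Ed, ({e.1, e.2} : Finset (Subgroup A)) ∈
      chainSets (↑W : Set (Subgroup A)) 2 := by
    intro e he
    obtain ⟨h1, h2, h3⟩ := hEd' e he
    refine ⟨?_, ?_, Finset.card_pair h3.ne⟩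
    · rw [Finset.coe_pair]; exact IsChain.pair h3.le
    · intro x hx
      rw [Finset.coe_pair] at hx
      rcases hx with rfl | hx
      · exact Finset.mem_union_left _ (Finset.mem_product.1 (Finset.mem_filter.1 he).1).1
      · rw [Set.mem_singleton_iff] at hx; subst hx
        exact Finset.mem_union_right _ h2
  have hzW : z ∈ CC k (↑W : Set (Subgroup A)) 2 := by
    rw [hmk]
    exact Submodule.sum_mem _ fun e _ => single_mem_CC (hchain _ e.2) _
  have hinjE : ∀ e ∈ Ed, ∀ e' ∈ Ed,
      ({e.1, e.2} : Finset (Subgroup A)) = {e'.1, e'.2} → e = e' := by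
    intro e he e' he' h
    obtain ⟨a1, a2, a3⟩ := hEd' e he
    obtain ⟨b1, b2, b3⟩ := hEd' e' he'
    have k1 := (hVel _ a2).2
    have k2 := (hVel _ b2).2
    have m1 : e.1 ∈ ({e'.1, e'.2} : Finset (Subgroup A)) := h ▸ Finset.mem_insert_self _ _
    have m2 : e.2 ∈ ({e'.1, e'.2} : Finset (Subgroup A)) :=
      h ▸ Finset.mem_insert_of_mem (Finset.mem_singleton_self _)
    simp only [Finset.mem_insert, Finset.mem_singleton] at m1 m2
    refine Prod.ext (m1.resolve_right fun e0 => ?_) (m2.resolve_left fun e0 => ?_)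
    · rw [e0] at a1; omega
    · rw [e0] at k1; omega
  obtain ⟨e0, he0⟩ : ∃ e : Ed, g e ≠ 0 := by
    by_contra hno
    push Not at hno
    exact hgne (funext hno)
  set σ : Finset (Subgroup A) := {e0.1.1, e0.1.2} with hσ
  have hσz : σ ∈ z.support := by
    rw [Finsupp.mem_support_iff, hmk, Finsupp.finsetSum_apply, Finset.sum_eq_single e0]
    · rw [hσ, Finsupp.single_eq_same]; exact he0
    · intro e _ hne
      rw [Finsupp.single_eq_of_ne]
      exact fun h => hne (Subtype.ext (hinjE _ e0.2 _ e.2 h).symm)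
    · simp
  have hz0 : bd k (Subgroup A) z = 0 := by
    ext s
    by_cases hs : s ∈ (bd k (Subgroup A) z).support
    · obtain ⟨-, hsW, hs1⟩ :=
        (Finsupp.mem_supported k _).1 (bd_mem_CC (show z ∈ CC k _ (1 + 1) from hzW)) hs
      obtain ⟨x, rfl⟩ := Finset.card_eq_one.1 hs1
      have := congrFun (show L g = 0 from hg) ⟨x, hsW (Finset.mem_singleton_self x)⟩
      simpa [L, ← hz] using this
    · rw [Finsupp.notMem_support_iff.1 hs, Finsupp.zero_apply]
  obtain ⟨-, h2, h3⟩ := hEd' _ e0.2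
  obtain ⟨α, hα⟩ := (Finset.mem_filter.1 h2).2
  set m : Subgroup A → Subgroup A := fun F => F.map α.symm.toMonoidHom with hm
  have hminj : Function.Injective m := Subgroup.map_injective α.symm.injective
  have hmlt : ∀ a ∈ (↑W : Set (Subgroup A)), ∀ b ∈ (↑W : Set (Subgroup A)), a < b → m a < m b :=
    fun a _ b _ hab => lt_of_le_of_ne (Subgroup.map_mono hab.le) fun e => hab.ne (hminj e)
  have hmE : m e0.1.2 = E := by
    rw [hm, ← hα]
    dsimp only
    rw [Subgroup.map_map]
    convert Subgroup.map_id E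
    ext x; simp
  refine ⟨push k m z, push_mem_CC hmlt
      (show Set.MapsTo m (↑W) (elemAbelianSubgroups 2 A) from fun F hF => ?_) hzW,
    by rw [← push_bd hmlt hzW, hz0, map_zero], σ.image m, ?_, ?_, ?_⟩
  · rcases Finset.mem_union.1 hF with h | h
    · obtain ⟨hF2, E', hE', hle⟩ := (Finset.mem_filter.1 h).2
      refine ⟨fun e => ?_, ((hVel E' hE').1.mono hle).map _⟩
      rw [Subgroup.map_eq_bot_iff_of_injective _ α.symm.injective] at e
      rw [e, Subgroup.card_bot] at hF2; omega
    · refine ⟨fun e => ?_, (hVel F h).1.map _⟩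
      rw [Subgroup.map_eq_bot_iff_of_injective _ α.symm.injective] at e
      have := (hVel F h).2
      rw [e, Subgroup.card_bot] at this; omega
  · rw [Finsupp.mem_support_iff, push, Finsupp.lmapDomain_apply,
      Finsupp.mapDomain_apply (Finset.image_injective hminj)]
    exact Finsupp.mem_support_iff.1 hσz
  · exact hmE ▸ Finset.mem_image_of_mem m (Finset.mem_insert_of_mem (Finset.mem_singleton_self _))
  · intro F hF
    obtain ⟨F0, hF0, rfl⟩ := Finset.mem_image.1 hF
    rw [← hmE]
    refine Subgroup.map_mono ?_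
    rcases Finset.mem_insert.1 hF0 with rfl | hF0
    · exact h3.le
    · rw [Finset.mem_singleton.1 hF0]

/-- Pinned cycles transport along isomorphisms. -/
theorem HasPinnedCycle.of_equiv {p : ℕ} {A B : Type} [Group A] [Group B] (e : A ≃* B)
    (h : HasPinnedCycle p A) : HasPinnedCycle p B := by
  obtain ⟨n, E, hne, hel, hcard, hcyc, hpin⟩ := h
  set m : Subgroup A → Subgroup B := fun F => F.map e.toMonoidHom with hm
  have hinj : Function.Injective m := Subgroup.map_injective e.injective
  have hlt : ∀ a ∈ elemAbelianSubgroups p A, ∀ b ∈ elemAbelianSubgroups p A, a < b → m a < m b :=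
    fun a _ b _ hab => lt_of_le_of_ne (Subgroup.map_mono hab.le) fun e' => hab.ne (hinj e')
  refine ⟨n, m E, fun h => hne ((Subgroup.map_eq_bot_iff_of_injective _ e.injective).1 h),
    hel.map _, (card_mapAut e E).trans_le hcard, fun k _ => ?_, fun β hβ hfix => ?_⟩
  · obtain ⟨z, hz, hz0, σ, hσ, hEσ, hσE⟩ := hcyc k
    refine ⟨push k m z, push_mem_CC hlt
      (show Set.MapsTo m (elemAbelianSubgroups p A) (elemAbelianSubgroups p B) from fun F hF =>
        ⟨fun h => hF.1 ((Subgroup.map_eq_bot_iff_of_injective _ e.injective).1 h), hF.2.map _⟩) hz,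
      by rw [← push_bd hlt hz, hz0, map_zero], σ.image m, ?_, Finset.mem_image_of_mem m hEσ,
      fun F hF => ?_⟩
    · rw [Finsupp.mem_support_iff, push, Finsupp.lmapDomain_apply,
        Finsupp.mapDomain_apply (Finset.image_injective hinj)]
      exact Finsupp.mem_support_iff.1 hσ
    · obtain ⟨F0, hF0, rfl⟩ := Finset.mem_image.1 hF
      exact Subgroup.map_mono (hσE F0 hF0)
  · let α : MulAut A := (e.trans β).trans e.symm
    have hpow : ∀ n : ℕ, ∀ a, (α ^ n) a = e.symm ((β ^ n) (e a)) := by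
      intro n
      induction n with
      | zero => intro a; simp
      | succ n ih =>
        intro a
        rw [pow_succ', MulAut.mul_apply, ih, pow_succ', MulAut.mul_apply]
        simp [α]
    obtain ⟨a, ha, hα⟩ := hpin α (MulEquiv.ext fun a => by rw [hpow, hβ]; simp) fun a ha => by
      simp [α, hfix (e a) ⟨a, ha, rfl⟩]
    refine ⟨e a, ⟨a, ha, rfl⟩, MulEquiv.ext fun b => ?_⟩
    have h1 := congrArg e (DFunLike.congr_fun hα (e.symm b))
    simpa [α] using h1

theorem IsPSL2Component.hasPinnedCycle {A : Type} [Group A] (h : IsPSL2Component A) :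
    HasPinnedCycle 2 A ∧ ∃ a b : A, a * b ≠ b * a := by
  obtain ⟨F, _, _, h2, h7, hσ, ⟨e⟩⟩ := h
  have : Finite (Matrix.ProjectiveSpecialLinearGroup (Fin 2) F) :=
    Finite.of_surjective (QuotientGroup.mk' _) (QuotientGroup.mk'_surjective _)
  obtain ⟨r, _⟩ := CharP.exists F
  have : Fact r.Prime := ⟨(CharP.char_is_prime_or_zero F r).resolve_right fun h0 => by
    subst h0
    have := CharP.charP_to_charZero F
    exact not_finite F⟩
  obtain ⟨u, v, huv⟩ := CharP.sq_add_sq F r (-1)
  have hab : (u : F) ^ 2 + (v : F) ^ 2 = -1 := by simpa using huv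
  refine ⟨HasPinnedCycle.of_equiv e.symm ⟨2, PSL2.E0 hab, fun hbot => ?_, PSL2.isElem_E0 hab, ?_,
    fun k _ => exists_graph_cycle (PSL2.isElem_E0 hab) (PSL2.card_E0 hab h2)
      (fun x hx hx1 => PSL2.exists_other h2 hab h7 hx hx1) k,
    fun α hα hfix => PSL2.pinned_E0 h2 hab r hσ α hα hfix⟩, ?_⟩
  · have := PSL2.card_E0 hab h2
    rw [hbot, Subgroup.card_bot] at this; omega
  · rw [PSL2.card_E0 hab h2]; norm_num
  · obtain ⟨a, b, hne⟩ := Linear.noncomm (m := 0) (F := F) (r := r)
    exact ⟨e.symm a, e.symm b, fun h => hne (e.symm.injective (by simpa using h))⟩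

end Vale.Agent.P240
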