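import Vale.Agent.P240.Basic
import Vale.Agent.P240.Group

/-!
# Pinned cycles: definitions
-/

namespace Vale.Agent.P240

/-- There is, over every field, a cycle in the poset of elementary abelian `p`-subgroups through a
full flag of some `E`, and every automorphism of order `p` fixing `E` pointwise is conjugation by
an element of `E`. -/
def HasPinnedCycle (p : ℕ) (A : Type) [Group A] : Prop :=
  ∃ (n : ℕ) (E : Subgroup A), E ≠ ⊥ ∧ IsElem p E ∧ Nat.card E ≤ p ^ n ∧
    (∀ (k : Type) [Field k], ∃ z ∈ CC k (elemAbelianSubgroups p A) n,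
      bd k (Subgroup A) z = 0 ∧ ∃ σ ∈ z.support, E ∈ σ ∧ ∀ F ∈ σ, F ≤ E) ∧
    ∀ α : MulAut A, α ^ p = 1 → (∀ e ∈ E, α e = e) → ∃ e ∈ E, α = MulAut.conj e

/-- `A` is `PSL(2, F)`, `F` finite of odd order at least seven without automorphisms of order
two. -/
def IsPSL2Component (A : Type) [Group A] : Prop :=
  ∃ (F : Type) (_ : Field F) (_ : Finite F), (2 : F) ≠ 0 ∧ 7 ≤ Nat.card F ∧
    (∀ σ : F ≃+* F, (∀ x, σ (σ x) = x) → σ = RingEquiv.refl F) ∧
    Nonempty (A ≃* Matrix.ProjectiveSpecialLinearGroup (Fin 2) F)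

end Vale.Agent.P240
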