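import Vale.Agent.P240.Basic

/-!
# Products of cycles in a semilattice

Given a base point `B`, the pairs of chains `(s, t)` are sent to chains of elements of the form
`B ⊔ ⨆ s' ⊔ ⨆ t'`. A product of a cycle through a full flag below `T` with a cycle above the
base point is no boundary when the elements properly above `T` project monotonically.
-/

set_option linter.unusedSectionVars false

open scoped Classical

noncomputable section

namespace Vale.Agent.P240.Pinned

variable {γ : Type*} [SemilatticeSup γ] [OrderBot γ] {k : Type*} [Field k]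

/-- The element attached to a pair of chains. -/
def tp (B : γ) (s t : Finset γ) : γ := B ⊔ s.sup id ⊔ t.sup id

/-- The elements attached to the nonempty pairs of subchains. -/
def PS (B : γ) (s t : Finset γ) : Set γ :=
  {F | ∃ s' ⊆ s, ∃ t' ⊆ t, (s'.Nonempty ∨ t'.Nonempty) ∧ F = tp B s' t'}

theorem tp_mono {B : γ} {s s' t t' : Finset γ} (hs : s' ⊆ s) (ht : t' ⊆ t) :
    tp B s' t' ≤ tp B s t :=
  sup_le_sup (sup_le_sup le_rfl (Finset.sup_mono hs)) (Finset.sup_mono ht)

theorem le_tp_of_mem {B : γ} {s t : Finset γ} {F : γ} (h : F ∈ PS B s t) : F ≤ tp B s t := by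
  obtain ⟨s', hs, t', ht, -, rfl⟩ := h
  exact tp_mono hs ht

theorem PS_mono {B : γ} {s s' t t' : Finset γ} (hs : s' ⊆ s) (ht : t' ⊆ t) :
    PS B s' t' ⊆ PS B s t := by
  rintro F ⟨a, ha, b, hb, hne, e⟩
  exact ⟨a, ha.trans hs, b, hb.trans ht, hne, e⟩

theorem sup_mem_chain {s : Finset γ} (hs : IsChain (· ≤ ·) (s : Set γ)) (hne : s.Nonempty) :
    s.sup id ∈ s := by
  induction hne using Finset.Nonempty.cons_induction with
  | singleton a => simp
  | cons a t hat hne ih =>
    rw [Finset.cons_eq_insert] at hs ⊢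
    have h := ih (hs.mono (by simp))
    rw [Finset.sup_insert, id]
    rcases eq_or_ne a (t.sup id) with e | e
    · rw [← e, sup_idem]; exact Finset.mem_insert_self a t
    rcases hs (Finset.mem_insert_self a t) (Finset.mem_insert_of_mem h) e with h' | h'
    · rw [sup_eq_right.2 h']; exact Finset.mem_insert_of_mem h
    · rw [sup_eq_left.2 h']; exact Finset.mem_insert_self a t

/-- The product chains, by recursion on the total length. -/
def ph (k : Type*) [Field k] (B : γ) : ℕ → Finset γ → Finset γ → (Finset γ →₀ k)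
  | 0, _, _ => Finsupp.single ∅ 1
  | d + 1, s, t => cone k (tp B s t)
      ((∑ a ∈ s, ((-1 : k) ^ below s a) • ph k B d (s.erase a) t) +
        ((-1 : k) ^ s.card) • ∑ a ∈ t, ((-1 : k) ^ below t a) • ph k B d s (t.erase a))

/-- The product of two chains. -/
def Φ (k : Type*) [Field k] (B : γ) (s t : Finset γ) : Finset γ →₀ k :=
  ph k B (s.card + t.card) s t

/-- The product, extended bilinearly. -/
def Φ₂ (k : Type*) [Field k] (B : γ) :
    (Finset γ →₀ k) →ₗ[k] (Finset γ →₀ k) →ₗ[k] (Finset γ →₀ k) :=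
  Finsupp.linearCombination k fun s => Finsupp.linearCombination k fun t => Φ k B s t

theorem Φ₂_single (B : γ) (s t : Finset γ) (a b : k) :
    Φ₂ k B (Finsupp.single s a) (Finsupp.single t b) = (a * b) • Φ k B s t := by
  simp [Φ₂, smul_smul]

/-- The boundary the product of two chains should have. -/
def dΦ (k : Type*) [Field k] (B : γ) (s t : Finset γ) : Finset γ →₀ k :=
  Φ₂ k B (bd k γ (Finsupp.single s 1)) (Finsupp.single t 1) +
    (-1 : k) ^ s.card • Φ₂ k B (Finsupp.single s 1) (bd k γ (Finsupp.single t 1))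

theorem Φ_zero (B : γ) : Φ k B ∅ ∅ = Finsupp.single ∅ 1 := by simp [Φ, ph]

theorem Φ_succ (B : γ) {s t : Finset γ} {d : ℕ} (h : s.card + t.card = d + 1) :
    Φ k B s t = cone k (tp B s t) (dΦ k B s t) := by
  rw [Φ, h, ph, dΦ]
  simp only [bd_single, map_sum, LinearMap.sum_apply, Φ₂_single, one_mul, mul_one]
  congr 2
  · refine Finset.sum_congr rfl fun a ha => ?_
    rw [Φ, show (s.erase a).card + t.card = d by rw [Finset.card_erase_of_mem ha]; have := Finset.card_pos.2 ⟨a, ha⟩; omega]
  · congr 1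
    refine Finset.sum_congr rfl fun a ha => ?_
    rw [Φ, show s.card + (t.erase a).card = d by rw [Finset.card_erase_of_mem ha]; have := Finset.card_pos.2 ⟨a, ha⟩; omega]

/-- Chains inside the product have the expected length and the Leibniz rule holds. -/
theorem Φ_spec (B : γ) : ∀ d : ℕ, ∀ s t : Finset γ, IsChain (· ≤ ·) (s : Set γ) →
    IsChain (· ≤ ·) (t : Set γ) → s.card + t.card = d →
    Φ k B s t ∈ CC k (PS B s t) d ∧ bd k γ (Φ k B s t) = dΦ k B s t := by
  intro d
  induction d with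
  | zero =>
    intro s t _ _ h
    obtain rfl : s = ∅ := Finset.card_eq_zero.1 (by omega)
    obtain rfl : t = ∅ := Finset.card_eq_zero.1 (by omega)
    refine ⟨?_, ?_⟩
    · rw [Φ_zero]
      exact single_mem_CC ⟨by simp [IsChain, Set.Pairwise], by simp, rfl⟩ 1
    · simp [Φ_zero, dΦ, bd_single]
  | succ d ih =>
    intro s t hs ht hd
    have hlin : ∀ i j, i + j = d → ∀ z ∈ CC k (↑s : Set γ) i, ∀ w ∈ CC k (↑t : Set γ) j,
        Φ₂ k B z w ∈ CC k (PS B s t) d ∧
          bd k γ (Φ₂ k B z w) = Φ₂ k B (bd k γ z) w + (-1 : k) ^ i • Φ₂ k B z (bd k γ w) := by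
      intro i j hij z hz
      refine CC_induction (P := fun z => ∀ w ∈ CC k (↑t : Set γ) j,
        Φ₂ k B z w ∈ CC k (PS B s t) d ∧
          bd k γ (Φ₂ k B z w) = Φ₂ k B (bd k γ z) w + (-1 : k) ^ i • Φ₂ k B z (bd k γ w))
        hz ?_ ?_ ?_
      · intro w _; simp
      · intro x y hx hy w hw
        obtain ⟨a1, a2⟩ := hx w hw
        obtain ⟨b1, b2⟩ := hy w hw
        simp only [map_add, LinearMap.add_apply]
        exact ⟨add_mem a1 b1, by rw [a2, b2, smul_add]; abel⟩
      · intro s' hs' a w hw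
        refine CC_induction (P := fun w => Φ₂ k B (Finsupp.single s' a) w ∈ CC k (PS B s t) d ∧
          bd k γ (Φ₂ k B (Finsupp.single s' a) w) =
            Φ₂ k B (bd k γ (Finsupp.single s' a)) w +
              (-1 : k) ^ i • Φ₂ k B (Finsupp.single s' a) (bd k γ w)) hw (by simp) ?_ ?_
        · rintro x y ⟨a1, a2⟩ ⟨b1, b2⟩
          simp only [map_add]
          exact ⟨add_mem a1 b1, by rw [a2, b2, smul_add]; abel⟩
        · intro t' ht' b
          obtain ⟨m1, m2⟩ := ih s' t' hs'.1 ht'.1 (by rw [hs'.2.2, ht'.2.2, hij])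
          rw [Φ₂_single]
          refine ⟨Submodule.smul_mem _ _ (CC_mono (PS_mono (Finset.coe_subset.1 hs'.2.1)
            (Finset.coe_subset.1 ht'.2.1)) m1), ?_⟩
          rw [map_smul, m2, dΦ, hs'.2.2,
            show Finsupp.single s' a = a • Finsupp.single s' (1 : k) by simp,
            show Finsupp.single t' b = b • Finsupp.single t' (1 : k) by simp]
          simp only [map_smul, LinearMap.smul_apply, smul_add, smul_smul]
          congr 1 <;> · congr 1; ring
    have hs1 : Finsupp.single s (1 : k) ∈ CC k (↑s : Set γ) s.card :=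
      single_mem_CC ⟨hs, subset_rfl, rfl⟩ 1
    have ht1 : Finsupp.single t (1 : k) ∈ CC k (↑t : Set γ) t.card :=
      single_mem_CC ⟨ht, subset_rfl, rfl⟩ 1
    -- first summand
    have h1 : Φ₂ k B (bd k γ (Finsupp.single s 1)) (Finsupp.single t 1) ∈ CC k (PS B s t) d ∧
        bd k γ (Φ₂ k B (bd k γ (Finsupp.single s 1)) (Finsupp.single t 1)) =
          -((-1 : k) ^ s.card • Φ₂ k B (bd k γ (Finsupp.single s 1))
            (bd k γ (Finsupp.single t 1))) := by
      rcases hi : s.card with _ | i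
      · obtain rfl : s = ∅ := Finset.card_eq_zero.1 hi
        simp [bd_single]
      · obtain ⟨a1, a2⟩ := hlin i t.card (by omega) _ (bd_mem_CC (hi ▸ hs1)) _ ht1
        refine ⟨a1, ?_⟩
        rw [a2, bd_bd hs1, map_zero, LinearMap.zero_apply, zero_add, pow_succ, ← neg_smul]
        congr 1; ring
    -- second summand
    have h2 : Φ₂ k B (Finsupp.single s 1) (bd k γ (Finsupp.single t 1)) ∈ CC k (PS B s t) d ∧
        bd k γ (Φ₂ k B (Finsupp.single s 1) (bd k γ (Finsupp.single t 1))) =
          Φ₂ k B (bd k γ (Finsupp.single s 1)) (bd k γ (Finsupp.single t 1)) := by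
      rcases hj : t.card with _ | j
      · obtain rfl : t = ∅ := Finset.card_eq_zero.1 hj
        simp [bd_single]
      · obtain ⟨a1, a2⟩ := hlin s.card j (by omega) _ hs1 _ (bd_mem_CC (hj ▸ ht1))
        refine ⟨a1, ?_⟩
        rw [a2, bd_bd ht1, map_zero, smul_zero, add_zero]
    have hx : dΦ k B s t ∈ CC k (PS B s t) d := add_mem h1.1 (Submodule.smul_mem _ _ h2.1)
    have hx0 : bd k γ (dΦ k B s t) = 0 := by
      rw [dΦ, map_add, map_smul, h1.2, h2.2, neg_add_cancel]
    have htop : tp B s t ∈ PS B s t := ⟨s, subset_rfl, t, subset_rfl, by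
      rcases s.eq_empty_or_nonempty with rfl | h
      · exact Or.inr (Finset.card_pos.1 (by simp at hd; omega))
      · exact Or.inl h, rfl⟩
    rw [Φ_succ B hd]
    refine ⟨cone_mem_CC hx htop (fun F hF => le_tp_of_mem hF), ?_⟩
    have h := cone_homotopy hx (t := tp B s t) (fun F hF => le_tp_of_mem hF)
    rwa [hx0, map_zero, add_zero] at h

/-- The product of two cycles. -/
theorem Φ₂_spec (B : γ) {A W U : Set γ} {i j : ℕ}
    (hU : ∀ s : Finset γ, ↑s ⊆ A → IsChain (· ≤ ·) (s : Set γ) → ∀ t : Finset γ, ↑t ⊆ W →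
      IsChain (· ≤ ·) (t : Set γ) → s.Nonempty ∨ t.Nonempty → tp B s t ∈ U)
    {z : Finset γ →₀ k} (hz : z ∈ CC k A i) {w : Finset γ →₀ k} (hw : w ∈ CC k W j) :
    Φ₂ k B z w ∈ CC k U (i + j) ∧
      bd k γ (Φ₂ k B z w) = Φ₂ k B (bd k γ z) w + (-1 : k) ^ i • Φ₂ k B z (bd k γ w) := by
  refine CC_induction (P := fun z => Φ₂ k B z w ∈ CC k U (i + j) ∧
      bd k γ (Φ₂ k B z w) = Φ₂ k B (bd k γ z) w + (-1 : k) ^ i • Φ₂ k B z (bd k γ w)) hz
    (by simp) ?_ ?_
  · rintro x y ⟨a1, a2⟩ ⟨b1, b2⟩
    simp only [map_add, LinearMap.add_apply]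
    exact ⟨add_mem a1 b1, by rw [a2, b2, smul_add]; abel⟩
  intro s hs a
  refine CC_induction (P := fun w => Φ₂ k B (Finsupp.single s a) w ∈ CC k U (i + j) ∧
    bd k γ (Φ₂ k B (Finsupp.single s a) w) =
      Φ₂ k B (bd k γ (Finsupp.single s a)) w +
        (-1 : k) ^ i • Φ₂ k B (Finsupp.single s a) (bd k γ w)) hw (by simp) ?_ ?_
  · rintro x y ⟨a1, a2⟩ ⟨b1, b2⟩
    simp only [map_add]
    exact ⟨add_mem a1 b1, by rw [a2, b2, smul_add]; abel⟩
  intro t ht b
  obtain ⟨m1, m2⟩ := Φ_spec (k := k) B (i + j) s t hs.1 ht.1 (by rw [hs.2.2, ht.2.2])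
  rw [Φ₂_single]
  refine ⟨Submodule.smul_mem _ _ (CC_mono ?_ m1), ?_⟩
  · rintro _ ⟨s', hs', t', ht', hne, rfl⟩
    exact hU s' (fun x hx => hs.2.1 (hs' hx)) (hs.1.mono (Finset.coe_subset.2 hs')) t'
      (fun x hx => ht.2.1 (ht' hx)) (ht.1.mono (Finset.coe_subset.2 ht')) hne
  · rw [map_smul, m2, dΦ, hs.2.2,
      show Finsupp.single s a = a • Finsupp.single s (1 : k) by simp,
      show Finsupp.single t b = b • Finsupp.single t (1 : k) by simp]
    simp only [map_smul, LinearMap.smul_apply, smul_add, smul_smul]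
    congr 1 <;> · congr 1; ring

/-- Restriction to the chains through the flag `f0` under `T`, projected by `g`. -/
def pj (k : Type*) [Field k] (T : γ) (f0 : Finset γ) (g : γ → γ) :
    (Finset γ →₀ k) →ₗ[k] (Finset γ →₀ k) :=
  Finsupp.linearCombination k fun c =>
    if c.filter (fun x => x ≤ T) = f0 then
      Finsupp.single ((c.filter (fun x => ¬ x ≤ T)).image g) 1 else 0

theorem pj_single (T : γ) (f0 : Finset γ) (g : γ → γ) (c : Finset γ) (a : k) :
    pj k T f0 g (Finsupp.single c a) = if c.filter (fun x => x ≤ T) = f0 then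
      Finsupp.single ((c.filter (fun x => ¬ x ≤ T)).image g) a else 0 := by
  by_cases h : c.filter (fun x => x ≤ T) = f0 <;> simp [pj, h]

section proj

variable {U W : Set γ} {T : γ} {f0 : Finset γ} {g : γ → γ} {n : ℕ}
  (hn : f0.card = n) (hT : T ∈ f0)
  (hwidth : ∀ c : Finset γ, IsChain (· ≤ ·) (c : Set γ) → ↑c ⊆ U → (∀ x ∈ c, x ≤ T) → c.card ≤ n)
  (hg : ∀ a ∈ U, T < a → g a ∈ W ∧ ∀ b ∈ U, a < b → g a < g b)

include hT in
theorem lt_of_filter {c : Finset γ} (hc : IsChain (· ≤ ·) (c : Set γ))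
    (h : c.filter (fun x => x ≤ T) = f0) {x : γ} (hx : x ∈ c) (hxT : ¬ x ≤ T) : T < x := by
  have hTc : T ∈ c := (Finset.mem_filter.1 (h.symm ▸ hT)).1
  rcases hc hTc hx (fun e => hxT e.ge) with h' | h'
  · exact lt_of_le_of_ne h' fun e => hxT e.ge
  · exact absurd h' hxT

include hn hT hwidth hg in
theorem pj_bd_single {m : ℕ} {c : Finset γ} (hc : c ∈ chainSets U m) :
    pj k T f0 g (bd k γ (Finsupp.single c 1)) =
      (-1 : k) ^ n • bd k γ (pj k T f0 g (Finsupp.single c 1)) := by
  rw [bd_single, map_sum]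
  simp only [one_mul, pj_single]
  by_cases hcond : c.filter (fun x => x ≤ T) = f0
  · set H := c.filter (fun x => ¬ x ≤ T) with hH
    have hmemH : ∀ a ∈ H, a ∈ U ∧ T < a := fun a ha =>
      ⟨hc.2.1 (Finset.mem_filter.1 ha).1,
        lt_of_filter hT hc.1 hcond (Finset.mem_filter.1 ha).1 (Finset.mem_filter.1 ha).2⟩
    have hHc : IsChain (· ≤ ·) (H : Set γ) := hc.1.mono (Finset.coe_subset.2 (Finset.filter_subset _ _))
    have hmono : ∀ a ∈ H, ∀ b ∈ H, a < b → g a < g b := fun a ha b hb =>
      (hg a (hmemH a ha).1 (hmemH a ha).2).2 b (hmemH b hb).1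
    have hpush := push_bd_single (k := k) hHc hmono 1
    rw [if_pos hcond, ← push_single, ← hpush, bd_single, map_sum, Finset.smul_sum]
    rw [← Finset.sum_filter_add_sum_filter_not c (fun a => a ≤ T), Finset.sum_eq_zero, zero_add]
    · refine Finset.sum_congr rfl fun a ha => ?_
      obtain ⟨hac, haT⟩ := Finset.mem_filter.1 ha
      have e0 : (c.erase a).filter (fun x => x ≤ T) = f0 := by
        rw [Finset.filter_erase, hcond, Finset.erase_eq_of_notMem]
        intro h
        rw [← hcond, Finset.mem_filter] at h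
        exact haT h.2
      have e1 : (c.erase a).filter (fun x => ¬ x ≤ T) = H.erase a := by
        rw [Finset.filter_erase]
      have e2 : below c a = n + below H a := by
        unfold below
        rw [← hn, ← hcond, ← Finset.card_union_of_disjoint]
        · congr 1
          ext x
          simp only [hH, Finset.mem_union, Finset.mem_filter]
          constructor
          · rintro ⟨hx, hlt⟩
            by_cases h : x ≤ T
            · exact Or.inl ⟨hx, h⟩
            · exact Or.inr ⟨⟨hx, h⟩, hlt⟩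
          · rintro (⟨hx, hle⟩ | ⟨⟨hx, -⟩, hlt⟩)
            · exact ⟨hx, lt_of_le_of_lt hle (lt_of_filter hT hc.1 hcond hac haT)⟩
            · exact ⟨hx, hlt⟩
        · rw [Finset.disjoint_left]
          intro x hx hx'
          simp only [hH, Finset.mem_filter] at hx hx'
          exact hx'.1.2 hx.2
      rw [if_pos e0, e1, push_single, Finsupp.smul_single, smul_eq_mul, one_mul, e2, pow_add]
    · intro a ha
      obtain ⟨hac, haT⟩ := Finset.mem_filter.1 ha
      rw [if_neg]
      intro h
      rw [Finset.filter_erase, hcond] at h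
      exact Finset.notMem_erase a f0 (by
        rw [h, ← hcond]; exact Finset.mem_filter.2 ⟨hac, haT⟩)
  · rw [if_neg hcond, map_zero, smul_zero]
    refine Finset.sum_eq_zero fun a ha => if_neg fun h => ?_
    rw [Finset.filter_erase] at h
    by_cases haT : a ≤ T
    · have hmem : a ∈ c.filter (fun x => x ≤ T) := Finset.mem_filter.2 ⟨ha, haT⟩
      have h1 := hwidth (c.filter (fun x => x ≤ T))
        (hc.1.mono (Finset.coe_subset.2 (Finset.filter_subset _ _)))
        (fun x hx => hc.2.1 (Finset.mem_filter.1 hx).1) (fun x hx => (Finset.mem_filter.1 hx).2)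
      rw [← Finset.insert_erase hmem, Finset.card_insert_of_notMem (Finset.notMem_erase _ _), h,
        hn] at h1
      omega
    · rw [Finset.erase_eq_of_notMem (s := c.filter (fun x => x ≤ T)) (fun h => haT (Finset.mem_filter.1 h).2)] at h
      exact hcond h

include hn hT hwidth hg in
theorem pj_bd {m : ℕ} {x : Finset γ →₀ k} (hx : x ∈ CC k U m) :
    pj k T f0 g (bd k γ x) = (-1 : k) ^ n • bd k γ (pj k T f0 g x) :=
  CC_induction (P := fun x => pj k T f0 g (bd k γ x) = (-1 : k) ^ n • bd k γ (pj k T f0 g x)) hx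
    (by simp) (fun x y a b => by simp only [map_add, smul_add, a, b]) fun c hc a => by
      rw [show Finsupp.single c a = a • Finsupp.single c (1 : k) by simp]
      simp only [map_smul]
      rw [pj_bd_single hn hT hwidth hg hc, smul_comm]

include hn hT hg in
theorem pj_mem {m : ℕ} {x : Finset γ →₀ k} (hx : x ∈ CC k U (n + m)) :
    pj k T f0 g x ∈ CC k W m := by
  refine CC_induction (P := fun x => pj k T f0 g x ∈ CC k W m) hx (by simp)
    (fun x y a b => by rw [map_add]; exact add_mem a b) fun c hc a => ?_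
  rw [pj_single]
  split_ifs with h
  · have hmemH : ∀ b ∈ c.filter (fun x => ¬ x ≤ T), b ∈ U ∧ T < b := fun b hb =>
      ⟨hc.2.1 (Finset.mem_filter.1 hb).1,
        lt_of_filter hT hc.1 h (Finset.mem_filter.1 hb).1 (Finset.mem_filter.1 hb).2⟩
    refine single_mem_CC ?_ _
    refine image_mem_chainSets (U := {b | b ∈ U ∧ T < b})
      (fun a ha b hb => (hg a ha.1 ha.2).2 b hb.1) (fun b hb => (hg b hb.1 hb.2).1)
      ⟨hc.1.mono (Finset.coe_subset.2 (Finset.filter_subset _ _)), fun b hb => hmemH b hb, ?_⟩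
    have := Finset.card_filter_add_card_filter_not (s := c) (fun x => x ≤ T)
    rw [h, hn, hc.2.2] at this
    omega
  · exact zero_mem _

include hn hT hg in
theorem pj_cone {m : ℕ} {x : Finset γ →₀ k} {V : Set γ} (hVU : V ⊆ U) {T' : γ} (hT' : T' ∈ V)
    (hTT' : ¬ T' ≤ T) (hle : ∀ a ∈ V, a ≤ T') (hx : x ∈ CC k V m) :
    pj k T f0 g (cone k T' x) = (-1 : k) ^ n • cone k (g T') (pj k T f0 g x) := by
  refine CC_induction (P := fun x =>
    pj k T f0 g (cone k T' x) = (-1 : k) ^ n • cone k (g T') (pj k T f0 g x)) hx (by simp)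
    (fun x y a b => by simp only [map_add, smul_add, a, b]) fun c hc a => ?_
  rw [cone_single]
  by_cases hcond : c.filter (fun x => x ≤ T) = f0
  swap
  · have : pj k T f0 g (Finsupp.single c a) = 0 := by rw [pj_single, if_neg hcond]
    rw [this, map_zero, smul_zero]
    split_ifs with h
    · simp
    · rw [pj_single, if_neg]
      rwa [Finset.filter_insert, if_neg hTT']
  have hmemH : ∀ b ∈ c.filter (fun x => ¬ x ≤ T), b ∈ U ∧ T < b := fun b hb =>
    ⟨hVU (hc.2.1 (Finset.mem_filter.1 hb).1),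
      lt_of_filter hT hc.1 hcond (Finset.mem_filter.1 hb).1 (Finset.mem_filter.1 hb).2⟩
  rw [pj_single, if_pos hcond, cone_single]
  by_cases h : T' ∈ c
  · rw [if_pos h, map_zero, if_pos, smul_zero]
    exact Finset.mem_image_of_mem _ (Finset.mem_filter.2 ⟨h, hTT'⟩)
  · have hnot : g T' ∉ (c.filter (fun x => ¬ x ≤ T)).image g := by
      intro h'
      obtain ⟨b, hb, e⟩ := Finset.mem_image.1 h'
      obtain ⟨hbU, hTb⟩ := hmemH b hb
      refine ((hg b hbU hTb).2 T' (hVU hT') (lt_of_le_of_ne (hle b (hc.2.1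
        (Finset.mem_filter.1 hb).1)) fun e' => h (e' ▸ (Finset.mem_filter.1 hb).1))).ne e
    rw [if_neg h, if_neg hnot, pj_single, Finset.filter_insert, if_neg hTT', if_pos hcond,
      Finset.filter_insert, if_pos hTT', Finset.image_insert, Finsupp.smul_single, smul_eq_mul]
    congr 1
    have hH : ((c.filter (fun x => ¬ x ≤ T)).image g).card + n = c.card := by
      rw [Finset.card_image_of_injOn (injOn_of_strictMono
        (hc.1.mono (Finset.coe_subset.2 (Finset.filter_subset _ _)))
        fun a ha b hb => (hg a (hmemH a ha).1 (hmemH a ha).2).2 b (hmemH b hb).1), ← hn, ← hcond,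
        add_comm]
      exact Finset.card_filter_add_card_filter_not (s := c) (fun x => x ≤ T)
    rw [← hH, pow_add]
    ring

end proj

/-- **Pinned product.** A cycle through a full flag `σ` and a nonbounding cycle above `B` give a
nonbounding cycle, provided the decomposition `B ⊔ f ⊔ b` is unique and the elements properly
above the top of the flag project strictly monotonically. -/
theorem hasReducedHomology_product {A W U : Set γ} (B : γ) {n : ℕ}
    {z : Finset γ →₀ k} (hz : z ∈ CC k A n) (hz0 : bd k γ z = 0)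
    {σ : Finset γ} (hσ : σ ∈ z.support) (hσne : σ.Nonempty)
    (hW : HasReducedHomology k W)
    (hU : ∀ s : Finset γ, ↑s ⊆ A → IsChain (· ≤ ·) (s : Set γ) → ∀ t : Finset γ, ↑t ⊆ W →
      IsChain (· ≤ ·) (t : Set γ) → s.Nonempty ∨ t.Nonempty → tp B s t ∈ U)
    (hsep : ∀ s : Finset γ, ↑s ⊆ A → IsChain (· ≤ ·) (s : Set γ) → ∀ t : Finset γ, ↑t ⊆ W →
      IsChain (· ≤ ·) (t : Set γ) → ∀ f ∈ σ, B ⊔ f = tp B s t → t = ∅ ∧ f ∈ s)
    (hmono : ∀ a ∈ σ, ∀ b ∈ σ, a < b → B ⊔ a < B ⊔ b)
    (hwidth : ∀ c : Finset γ, IsChain (· ≤ ·) (c : Set γ) → ↑c ⊆ U →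
      (∀ x ∈ c, x ≤ B ⊔ σ.sup id) → c.card ≤ n)
    (g : γ → γ) (hg : ∀ a ∈ U, B ⊔ σ.sup id < a → g a ∈ W ∧ ∀ b ∈ U, a < b → g a < g b)
    (hgT : ∀ t : Finset γ, ↑t ⊆ W → IsChain (· ≤ ·) (t : Set γ) → t.Nonempty →
      B ⊔ σ.sup id < tp B σ t ∧ g (tp B σ t) = t.sup id) :
    HasReducedHomology k U := by
  obtain ⟨hσc, hσA, hσn⟩ := (Finsupp.mem_supported k z).1 hz hσ
  set f0 := σ.image (fun f => B ⊔ f) with hf0
  set T := B ⊔ σ.sup id with hTdef
  have hinj := injOn_of_strictMono hσc hmono
  have hf0n : f0.card = n := by rw [hf0, Finset.card_image_of_injOn hinj, hσn]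
  have hT : T ∈ f0 := Finset.mem_image_of_mem _ (sup_mem_chain hσc hσne)
  have htpσ : tp B σ ∅ = T := by simp [tp, hTdef]
  -- products whose first chain is not `σ` project to zero
  have hzero : ∀ s : Finset γ, IsChain (· ≤ ·) (s : Set γ) → ↑s ⊆ A → s.card ≤ n → s ≠ σ →
      ∀ t : Finset γ, IsChain (· ≤ ·) (t : Set γ) → ↑t ⊆ W → pj k T f0 g (Φ k B s t) = 0 := by
    intro s hs hsA hsn hne t ht htW
    have hm := (Φ_spec (k := k) B _ s t hs ht rfl).1
    rw [← Finsupp.sum_single (Φ k B s t), map_finsuppSum]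
    refine Finset.sum_eq_zero fun c hc => ?_
    dsimp only
    rw [pj_single, if_neg]
    intro h
    refine hne (Finset.eq_of_subset_of_card_le ?_ (hsn.trans hσn.ge)).symm
    intro f hf
    have hfc : B ⊔ f ∈ c.filter (fun x => x ≤ T) := by
      rw [h]; exact Finset.mem_image_of_mem (fun f => B ⊔ f) hf
    replace hfc : B ⊔ f ∈ c := (Finset.mem_filter.1 hfc).1
    obtain ⟨s', hs', t', ht', -, e⟩ := ((Finsupp.mem_supported k _).1 hm hc).2.1 hfc
    exact hs' (hsep s' (fun x hx => hsA (hs' hx)) (hs.mono (Finset.coe_subset.2 hs')) t'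
      (fun x hx => htW (ht' hx)) (ht.mono (Finset.coe_subset.2 ht')) f hf e).2
  -- products inside `σ` are the flag
  have hflag : ∀ m, ∀ s, s ⊆ σ → s.card = m →
      Φ k B s ∅ = Finsupp.single (s.image (fun f => B ⊔ f)) 1 := by
    intro m
    induction m with
    | zero =>
      intro s _ hs
      obtain rfl := Finset.card_eq_zero.1 hs
      simp [Φ_zero]
    | succ m ih =>
      intro s hsσ hs
      have hsc : IsChain (· ≤ ·) (s : Set γ) := hσc.mono (Finset.coe_subset.2 hsσ)
      have hm' : ∀ a ∈ s, ∀ b ∈ s, a < b → B ⊔ a < B ⊔ b := fun a ha b hb =>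
        hmono a (hsσ ha) b (hsσ hb)
      have hd : dΦ k B s ∅ = bd k γ (Finsupp.single (s.image (fun f => B ⊔ f)) 1) := by
        rw [dΦ, ← push_single (k := k) (fun f => B ⊔ f), ← push_bd_single hsc hm' 1]
        simp only [bd_single, Finset.sum_empty, map_zero, smul_zero, add_zero, map_sum,
          LinearMap.sum_apply, Φ₂_single, mul_one, push_single]
        refine Finset.sum_congr rfl fun a ha => ?_
        rw [ih _ ((Finset.erase_subset a s).trans hsσ) (by
          rw [Finset.card_erase_of_mem ha, hs]; omega), Finsupp.smul_single, smul_eq_mul, mul_one]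
      rw [Φ_succ B (d := m) (by simp [hs]), hd]
      have hmem : tp B s ∅ ∈ s.image (fun f => B ⊔ f) :=
        Finset.mem_image.2 ⟨_, sup_mem_chain hsc (Finset.card_pos.1 (by omega)), by simp [tp]⟩
      have h := cone_homotopy_single (k := k) (s := s.image (fun f => B ⊔ f)) (t := tp B s ∅)
        (fun a ha => by
        obtain ⟨f, hf, rfl⟩ := Finset.mem_image.1 ha
        simpa [tp] using sup_le_sup (le_refl B) (Finset.le_sup (f := id) hf)) 1
      rwa [cone_single, if_pos hmem, map_zero, zero_add] at h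
  -- products with `σ`
  have hmain : ∀ j, ∀ t : Finset γ, IsChain (· ≤ ·) (t : Set γ) → ↑t ⊆ W → t.card = j →
      pj k T f0 g (Φ k B σ t) = Finsupp.single t 1 := by
    intro j
    induction j with
    | zero =>
      intro t _ _ ht0
      obtain rfl := Finset.card_eq_zero.1 ht0
      rw [hflag n σ subset_rfl hσn, ← hf0, pj_single, if_pos, Finset.filter_false_of_mem]
      · simp
      · intro x hx h
        refine h ?_
        obtain ⟨f, hf, rfl⟩ := Finset.mem_image.1 hx
        exact sup_le_sup le_rfl (Finset.le_sup (f := id) hf)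
      · refine Finset.filter_true_of_mem fun x hx => ?_
        obtain ⟨f, hf, rfl⟩ := Finset.mem_image.1 hx
        exact sup_le_sup le_rfl (Finset.le_sup (f := id) hf)
    | succ j ih =>
      intro t htc htW htj
      have htne : t.Nonempty := Finset.card_pos.1 (by omega)
      obtain ⟨hlt, hgt⟩ := hgT t htW htc htne
      have hVU : PS B σ t ⊆ U := by
        rintro _ ⟨s', hs', t', ht', hne, rfl⟩
        exact hU s' (fun x hx => hσA (hs' hx)) (hσc.mono (Finset.coe_subset.2 hs')) t'
          (fun x hx => htW (ht' hx)) (htc.mono (Finset.coe_subset.2 ht')) hne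
      have hd : σ.card + t.card = (n + j) + 1 := by omega
      have hx : dΦ k B σ t ∈ CC k (PS B σ t) (n + j) := by
        obtain ⟨m1, m2⟩ := Φ_spec (k := k) B _ σ t hσc htc hd
        rw [← m2]; exact bd_mem_CC m1
      rw [Φ_succ B hd, pj_cone (U := U) (W := W) hf0n hT hg hVU
        ⟨σ, subset_rfl, t, subset_rfl, Or.inl hσne, rfl⟩ (fun h => hlt.not_ge h)
        (fun a ha => le_tp_of_mem ha) hx, hgt, dΦ, map_add, map_smul]
      have e1 : pj k T f0 g (Φ₂ k B (bd k γ (Finsupp.single σ 1)) (Finsupp.single t 1)) = 0 := by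
        simp only [bd_single, map_sum, LinearMap.sum_apply, Φ₂_single, map_smul]
        refine Finset.sum_eq_zero fun a ha => ?_
        rw [hzero (σ.erase a) (hσc.mono (Finset.coe_subset.2 (Finset.erase_subset a σ)))
          (fun x hx => hσA (Finset.mem_of_mem_erase hx))
          ((Finset.card_le_card (Finset.erase_subset a σ)).trans hσn.le)
          (fun e => Finset.notMem_erase a σ (e.symm ▸ ha)) t htc htW, smul_zero]
      have e2 : pj k T f0 g (Φ₂ k B (Finsupp.single σ 1) (bd k γ (Finsupp.single t 1))) =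
          bd k γ (Finsupp.single t 1) := by
        simp only [bd_single, map_sum, Φ₂_single, map_smul, one_mul]
        refine Finset.sum_congr rfl fun a ha => ?_
        rw [ih _ (htc.mono (Finset.coe_subset.2 (Finset.erase_subset a t)))
          (fun x hx => htW (Finset.mem_of_mem_erase hx))
          (by rw [Finset.card_erase_of_mem ha]; omega), Finsupp.smul_single, smul_eq_mul, mul_one]
      rw [e1, e2, zero_add, map_smul, smul_smul, hσn, ← pow_add, ← two_mul, pow_mul]
      simp only [neg_one_sq, one_pow, one_smul]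
      have h := cone_homotopy_single (k := k) (t := t.sup id)
        (fun a ha => Finset.le_sup (f := id) ha) (1 : k) (s := t)
      rwa [cone_single, if_pos (sup_mem_chain htc htne), map_zero, zero_add] at h
  obtain ⟨m, w, hw, hw0, hwb⟩ := hW
  obtain ⟨hP, hPb⟩ := Φ₂_spec B hU hz hw
  refine ⟨n + m, Φ₂ k B z w, hP, ?_, fun u hu e => ?_⟩
  · rw [hPb, hz0, hw0, map_zero, map_zero, LinearMap.zero_apply, smul_zero, add_zero]
  have hval : pj k T f0 g (Φ₂ k B z w) = z σ • w := by
    refine CC_induction (P := fun w => pj k T f0 g (Φ₂ k B z w) = z σ • w) hw (by simp)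
      (fun x y a b => by simp only [map_add, smul_add, a, b]) fun t ht b => ?_
    conv_lhs => rw [← Finsupp.sum_single z, map_finsuppSum, Finsupp.sum]
    simp only [LinearMap.sum_apply, map_sum, Φ₂_single, map_smul]
    rw [Finset.sum_eq_single σ]
    · rw [hmain _ t ht.1 ht.2.1 rfl, Finsupp.smul_single, Finsupp.smul_single, smul_eq_mul,
        smul_eq_mul, mul_one]
    · intro s hs hne
      obtain ⟨sc, sA, sn⟩ := (Finsupp.mem_supported k z).1 hz hs
      rw [hzero s sc sA sn.le hne t ht.1 ht.2.1, smul_zero]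
    · exact fun h => absurd hσ h
  have hmem : pj k T f0 g u ∈ CC k W (m + 1) :=
    pj_mem hf0n hT hg (by rwa [← add_assoc])
  have hne : z σ ≠ 0 := Finsupp.mem_support_iff.1 hσ
  refine hwb (((-1 : k) ^ n * (z σ)⁻¹) • pj k T f0 g u) (Submodule.smul_mem _ _ hmem) ?_
  rw [map_smul, mul_comm, ← smul_smul, ← pj_bd hf0n hT hwidth hg hu, e, hval, smul_smul,
    inv_mul_cancel₀ hne, one_smul]

end Vale.Agent.P240.Pinned
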