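import Vale.Agent.P240.Pinned.Defs
import Vale.Agent.P240.Pinned.Product
import Vale.Agent.P240.Restrict
import Vale.Agent.P240.Modular.Eliminate

/-!
# Removing components with pinned cycles

A component with a cycle through a full flag of an elementary abelian subgroup `E`, such that the
automorphisms of order `p` fixing `E` pointwise come from `E`, can be removed without loss, over
every field and in every position.
-/

set_option linter.unusedSectionVars false

open scoped Classical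

noncomputable section

namespace Vale.Agent.P240

namespace Pinned

variable {X : Type*} [Group X]

theorem exists_of_mem_sup {e b : Subgroup X} (hc : ∀ u ∈ e, ∀ v ∈ b, u * v = v * u) {x : X}
    (hx : x ∈ e ⊔ b) : ∃ u ∈ e, ∃ v ∈ b, x = u * v := by
  let H : Subgroup X :=
    { carrier := {x | ∃ u ∈ e, ∃ v ∈ b, x = u * v}
      one_mem' := ⟨1, e.one_mem, 1, b.one_mem, (mul_one 1).symm⟩
      mul_mem' := fun {x y} ⟨u, hu, v, hv, hx⟩ ⟨u', hu', v', hv', hy⟩ =>
        ⟨u * u', e.mul_mem hu hu', v * v', b.mul_mem hv hv', by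
          rw [hx, hy, mul_assoc, ← mul_assoc v, ← hc u' hu' v hv]; group⟩
      inv_mem' := fun {x} ⟨u, hu, v, hv, hx⟩ =>
        ⟨u⁻¹, e.inv_mem hu, v⁻¹, b.inv_mem hv, by
          rw [hx, mul_inv_rev, hc u⁻¹ (e.inv_mem hu) v⁻¹ (b.inv_mem hv)]⟩ }
  have hle : e ⊔ b ≤ H := sup_le (fun u hu => ⟨u, hu, 1, b.one_mem, (mul_one u).symm⟩)
    fun v hv => ⟨1, e.one_mem, v, hv, (one_mul v).symm⟩
  exact hle hx

theorem isElem_sup {p : ℕ} {e b : Subgroup X} (hc : ∀ u ∈ e, ∀ v ∈ b, u * v = v * u)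
    (he : IsElem p e) (hb : IsElem p b) : IsElem p (e ⊔ b) := by
  refine ⟨fun x hx y hy => ?_, fun x hx => ?_⟩
  · obtain ⟨u, hu, v, hv, rfl⟩ := exists_of_mem_sup hc hx
    obtain ⟨u', hu', v', hv', rfl⟩ := exists_of_mem_sup hc hy
    calc u * v * (u' * v') = u * (v * u') * v' := by group
      _ = u * u' * (v * v') := by rw [← hc u' hu' v hv]; group
      _ = u' * u * (v' * v) := by rw [he.1 u hu u' hu', hb.1 v hv v' hv']
      _ = u' * (u * v') * v := by group
      _ = u' * v' * (u * v) := by rw [hc u hu v' hv']; group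
  · obtain ⟨u, hu, v, hv, rfl⟩ := exists_of_mem_sup hc hx
    rw [(show Commute u v from hc u hu v hv).mul_pow, he.2 u hu, hb.2 v hv, one_mul]

theorem card_sup_le [Finite X] {e b : Subgroup X} (hc : ∀ u ∈ e, ∀ v ∈ b, u * v = v * u) :
    Nat.card (e ⊔ b : Subgroup X) ≤ Nat.card e * Nat.card b := by
  rw [← Nat.card_prod]
  refine Nat.card_le_card_of_surjective
    (fun q : e × b => (⟨q.1 * q.2, mul_mem (le_sup_left (a := e) q.1.2)
      (le_sup_right (b := b) q.2.2)⟩ : (e ⊔ b : Subgroup X))) ?_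
  rintro ⟨x, hx⟩
  obtain ⟨u, hu, v, hv, rfl⟩ := exists_of_mem_sup hc hx
  exact ⟨(⟨u, hu⟩, ⟨v, hv⟩), rfl⟩

end Pinned

namespace CompSys

variable {X : Type} [Group X] [Finite X] {K : Subgroup X} {ι : Type} [Fintype ι]
  {A : ι → Type} [∀ i, Group (A i)] [∀ i, Finite (A i)] (S : CompSys K A)
  {p : ℕ} [Fact p.Prime]

theorem L_le_cenOf {i : ι} {R : ι → Prop} (hi : ¬ R i) : S.L i ≤ S.cenOf R := by
  rintro _ ⟨a, rfl⟩ l hl b
  rw [S.j_apply, S.j_apply, ← map_mul, ← map_mul]
  congr 1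
  have hli : l ≠ i := fun e => hi (e ▸ hl)
  funext m
  by_cases h1 : m = i
  · subst h1; simp [Ne.symm hli]
  · simp [h1]

/-- One component with a pinned cycle. -/
theorem pinned_step (k : Type) [Field k] {i : ι} (hP : HasPinnedCycle p (A i)) {s : Finset ι}
    (hi : i ∉ s) {C : Subgroup X} (hC : IsElem p C) (hCY : C ≤ S.cenOf (· ∈ insert i s))
    (h : HasReducedHomology k {E | E ∈ Lk p C ∧ E ≤ S.cenOf (· ∈ insert i s)}) :
    HasReducedHomology k {E | E ∈ Lk p C ∧ E ≤ S.cenOf (· ∈ s)} := by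
  obtain ⟨n, E, hE1, hE, hEn, hcyc, hpin⟩ := hP
  obtain ⟨z0, hz0, hz00, σ0, hσ0, hEσ, hσE⟩ := hcyc k
  obtain ⟨hσc, hσA, hσn⟩ := (Finsupp.mem_supported k z0).1 hz0 hσ0
  set Y := S.cenOf (· ∈ insert i s) with hY
  set Y0 := S.cenOf (· ∈ s) with hY0
  have hYY0 : Y ≤ Y0 := fun g hg l hl => hg l (Finset.mem_insert_of_mem hl)
  have hLY0 : S.L i ≤ Y0 := S.L_le_cenOf hi
  have hcomm : ∀ u ∈ S.L i, ∀ v ∈ Y, u * v = v * u := by
    rintro _ ⟨a, rfl⟩ v hv
    exact (hv i (Finset.mem_insert_self i s) a).symm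
  have hcap : ∀ x ∈ S.L i, x ∈ Y → x = 1 := by
    rintro _ ⟨a, rfl⟩ ha
    have : a = 1 := S.center i a fun b => S.j_inj i (by
      rw [map_mul, map_mul]; exact ha i (Finset.mem_insert_self i s) b)
    rw [this, map_one]
  -- unique decomposition
  have hinfY : ∀ e b : Subgroup X, e ≤ S.L i → b ≤ Y → (e ⊔ b) ⊓ Y = b := by
    intro e b he hb
    refine le_antisymm ?_ (le_inf le_sup_right hb)
    rintro x ⟨hx, hxY⟩
    obtain ⟨u, hu, v, hv, rfl⟩ :=
      Pinned.exists_of_mem_sup (fun u hu v hv => hcomm u (he hu) v (hb hv)) hx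
    have : u = 1 := hcap u (he hu) (by simpa using Y.mul_mem hxY (Y.inv_mem (hb hv)))
    rw [this, one_mul]; exact hv
  have hinfL : ∀ e b : Subgroup X, e ≤ S.L i → b ≤ Y → (e ⊔ b) ⊓ S.L i = e := by
    intro e b he hb
    refine le_antisymm ?_ (le_inf le_sup_left he)
    rintro x ⟨hx, hxL⟩
    obtain ⟨u, hu, v, hv, rfl⟩ :=
      Pinned.exists_of_mem_sup (fun u hu v hv => hcomm u (he hu) v (hb hv)) hx
    have : v = 1 := hcap v (by simpa using (S.L i).mul_mem ((S.L i).inv_mem (he hu)) hxL) (hb hv)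
    rw [this, mul_one]; exact hu
  set m : Subgroup (A i) → Subgroup X := fun F => F.map (S.j i) with hm
  have hmle : ∀ F, m F ≤ S.L i := fun F => Subgroup.map_le_range _ _
  have hmlt : ∀ F ∈ elemAbelianSubgroups p (A i), ∀ F' ∈ elemAbelianSubgroups p (A i),
      F < F' → m F < m F' := fun F _ F' _ hlt =>
    lt_of_le_of_ne (Subgroup.map_mono hlt.le) fun e =>
      hlt.ne (Subgroup.map_injective (S.j_inj i) e)
  set Ain : Set (Subgroup X) := {F | F ≠ ⊥ ∧ IsElem p F ∧ F ≤ S.L i} with hAin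
  have hmA : ∀ F ∈ elemAbelianSubgroups p (A i), m F ∈ Ain := fun F hF =>
    ⟨fun e => hF.1 ((Subgroup.map_eq_bot_iff_of_injective _ (S.j_inj i)).1 e), hF.2.map _, hmle F⟩
  set W : Set (Subgroup X) := {E | E ∈ Lk p C ∧ E ≤ Y} with hW
  set U : Set (Subgroup X) := {E | E ∈ Lk p C ∧ E ≤ Y0} with hU
  -- the image cycle
  set z := push k m z0 with hz
  set σ := σ0.image m with hσ
  have hinj : Function.Injective m := Subgroup.map_injective (S.j_inj i)
  have hzσ : σ ∈ z.support := by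
    rw [Finsupp.mem_support_iff, hz, push, Finsupp.lmapDomain_apply,
      hσ, Finsupp.mapDomain_apply (Finset.image_injective hinj)]
    exact Finsupp.mem_support_iff.1 hσ0
  have hσL : ∀ F ∈ σ, F ≤ S.L i := by
    intro F hF
    obtain ⟨F0, -, rfl⟩ := Finset.mem_image.1 hF
    exact hmle F0
  have hsupσ : σ.sup id = m E := by
    refine le_antisymm (Finset.sup_le fun F hF => ?_)
      (Finset.le_sup (f := id) (Finset.mem_image_of_mem m hEσ))
    obtain ⟨F0, hF0, rfl⟩ := Finset.mem_image.1 hF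
    exact Subgroup.map_mono (hσE F0 hF0)
  set T : Subgroup X := C ⊔ σ.sup id with hT
  have hsupL : ∀ u : Finset (Subgroup X), ↑u ⊆ Ain → u.sup id ≤ S.L i := fun u hu =>
    Finset.sup_le fun F hF => (hu hF).2.2
  have hsupY : ∀ t : Finset (Subgroup X), ↑t ⊆ W → C ⊔ t.sup id ≤ Y := fun t ht =>
    sup_le hCY (Finset.sup_le fun F hF => (ht hF).2)
  have htp : ∀ (u t : Finset (Subgroup X)),
      Pinned.tp C u t = u.sup id ⊔ (C ⊔ t.sup id) := fun u t => by
    rw [Pinned.tp]; ac_rfl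
  have hnonempty : ∀ t : Finset (Subgroup X), ↑t ⊆ W → t.Nonempty →
      IsChain (· ≤ ·) (t : Set (Subgroup X)) → C ⊔ t.sup id = t.sup id ∧ C < t.sup id :=
    fun t ht hne hc => by
      have hlt := (ht (Pinned.sup_mem_chain hc hne)).1.2
      exact ⟨sup_eq_right.2 hlt.le, hlt⟩
  have hU' : ∀ u : Finset (Subgroup X), ↑u ⊆ Ain → IsChain (· ≤ ·) (u : Set (Subgroup X)) →
      ∀ t : Finset (Subgroup X), ↑t ⊆ W → IsChain (· ≤ ·) (t : Set (Subgroup X)) →
      u.Nonempty ∨ t.Nonempty → Pinned.tp C u t ∈ U := by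
    intro u hu huc t ht htc hne
    have hue : IsElem p (u.sup id) := by
      rcases u.eq_empty_or_nonempty with rfl | h
      · rw [Finset.sup_empty]; exact isElem_bot
      · exact (hu (Pinned.sup_mem_chain huc h)).2.1
    have hte : IsElem p (C ⊔ t.sup id) := by
      rcases t.eq_empty_or_nonempty with rfl | h
      · rw [Finset.sup_empty, sup_bot_eq]; exact hC
      · rw [(hnonempty t ht h htc).1]; exact (ht (Pinned.sup_mem_chain htc h)).1.1
    rw [htp]
    refine ⟨⟨Pinned.isElem_sup (fun a ha b hb => hcomm a (hsupL u hu ha) b (hsupY t ht hb)) hue hte,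
      lt_of_le_of_ne (le_sup_of_le_right le_sup_left) fun e => ?_⟩,
      sup_le ((hsupL u hu).trans hLY0) ((hsupY t ht).trans hYY0)⟩
    rcases hne with h | h
    · have h1 : u.sup id ≤ C ⊓ S.L i := le_inf (le_sup_left.trans e.ge) (hsupL u hu)
      have h2 : C ⊓ S.L i = ⊥ := (Subgroup.eq_bot_iff_forall _).2 fun x hx => hcap x hx.2 (hCY hx.1)
      exact (hu (Pinned.sup_mem_chain huc h)).1 (le_bot_iff.1 (h1.trans h2.le))
    · exact (hnonempty t ht h htc).2.not_ge ((le_sup_right.trans le_sup_right).trans e.ge)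
  -- elements properly above the top of the flag
  have hsplit : ∀ F ∈ U, T < F → F = m E ⊔ (F ⊓ Y) := by
    intro F hF hlt
    have hEF : m E ≤ F := hsupσ.ge.trans ((le_sup_right : σ.sup id ≤ T).trans hlt.le)
    refine le_antisymm (fun g hg => ?_) (sup_le hEF inf_le_left)
    obtain ⟨e0, he0, he01⟩ := (Subgroup.bot_or_exists_ne_one E).resolve_left hE1
    have hgc : ∀ a ∈ E, g * S.j i a * g⁻¹ = S.j i a := fun a ha => by
      rw [hF.1.1.1 g hg _ (hEF ⟨a, ha, rfl⟩), mul_assoc, mul_inv_cancel, mul_one]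
    obtain ⟨l, hl⟩ := S.exists_perm g i
    have hFix : S.Fix g i := by
      have hmem : S.j i e0 ∈ cj g (S.L i) := by
        rw [mem_cj]
        refine ⟨e0, ?_⟩
        conv_rhs => rw [← hgc e0 he0]
        group
      rw [hl] at hmem
      rw [Fix, hl, S.L_disjoint he01 hmem]
    have hpow : ∀ j : ℕ, ∀ a, S.j i (((S.aut hFix) ^ j) a) = g ^ j * S.j i a * (g ^ j)⁻¹ := by
      intro j
      induction j with
      | zero => intro a; simp
      | succ j ih =>
        intro a
        rw [pow_succ', MulAut.mul_apply, ← S.aut_spec hFix, ih, pow_succ', mul_inv_rev]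
        simp only [mul_assoc]
    obtain ⟨a, ha, haut⟩ := hpin (S.aut hFix)
      (MulEquiv.ext fun b => S.j_inj i (by rw [hpow p b, hF.1.1.2 g hg]; simp))
      (fun b hb => S.j_inj i (by rw [← S.aut_spec hFix, hgc b hb]))
    have hgY : (S.j i a)⁻¹ * g ∈ Y := by
      intro l hl
      rcases Finset.mem_insert.1 hl with rfl | hl
      · intro b
        have h1 := S.aut_spec hFix b
        rw [haut, MulAut.conj_apply, map_mul, map_mul, map_inv, mul_inv_eq_iff_eq_mul] at h1
        rw [mul_assoc, h1]; group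
      · exact Y0.mul_mem (Y0.inv_mem (hLY0 ⟨a, rfl⟩)) (hF.2 hg) l hl
    have hmem : (S.j i a)⁻¹ * g ∈ F ⊓ Y :=
      ⟨F.mul_mem (F.inv_mem (hEF ⟨a, ha, rfl⟩)) hg, hgY⟩
    have := Subgroup.mul_mem (m E ⊔ F ⊓ Y)
      (le_sup_left (b := F ⊓ Y) (show S.j i a ∈ m E from ⟨a, ha, rfl⟩))
      (le_sup_right (a := m E) hmem)
    rwa [mul_inv_cancel_left] at this
  refine Pinned.hasReducedHomology_product (A := Ain) (W := W) (U := U) (σ := σ) C
    (push_mem_CC hmlt hmA hz0) (by rw [← push_bd hmlt hz0, hz00, map_zero]) hzσ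
    ⟨m E, Finset.mem_image_of_mem m hEσ⟩ h hU' ?_ ?_ ?_ (fun F => F ⊓ Y) ?_ ?_
  · intro u hu huc t ht htc f hf e
    rw [htp, sup_comm] at e
    have e1 := congrArg (fun q => q ⊓ S.L i) e
    have e2 := congrArg (fun q => q ⊓ Y) e
    rw [hinfL f C (hσL f hf) hCY, hinfL _ _ (hsupL u hu) (hsupY t ht)] at e1
    rw [hinfY f C (hσL f hf) hCY, hinfY _ _ (hsupL u hu) (hsupY t ht)] at e2
    refine ⟨t.eq_empty_or_nonempty.resolve_right fun hne => ?_, ?_⟩
    · obtain ⟨h1, h2⟩ := hnonempty t ht hne htc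
      exact h2.ne (e2.trans h1)
    · rcases u.eq_empty_or_nonempty with rfl | hne
      · rw [Finset.sup_empty] at e1
        obtain ⟨f0, hf0, rfl⟩ := Finset.mem_image.1 hf
        exact absurd e1 (hmA f0 (hσA hf0)).1
      · exact e1 ▸ Pinned.sup_mem_chain huc hne
  · intro a ha b hb hab
    refine lt_of_le_of_ne (sup_le_sup_left hab.le C) fun e => hab.ne ?_
    rw [← hinfL a C (hσL a ha) hCY, sup_comm, e, sup_comm, hinfL b C (hσL b hb) hCY]
  · intro c hc hcU hcT
    have hTe : T ∈ U := by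
      have := hU' σ (fun F hF => by
        obtain ⟨F0, hF0, rfl⟩ := Finset.mem_image.1 hF
        exact hmA F0 (hσA hF0)) (isChain_image hσc fun a ha b hb =>
          hmlt a (hσA ha) b (hσA hb)) ∅ (by simp) (by simp [IsChain, Set.Pairwise])
        (Or.inl ⟨m E, Finset.mem_image_of_mem m hEσ⟩)
      simpa [Pinned.tp] using this
    have h1 := card_chain (p := p) (C := C) hTe.1.1 le_sup_left hc
      (fun x hx => ⟨(hcU hx).1.2, hcT x hx⟩)
    have h2 : Nat.card T ≤ p ^ n * Nat.card C := by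
      rw [hT, hsupσ, sup_comm]
      refine (Pinned.card_sup_le fun u hu v hv => hcomm u (hmle E hu) v (hCY hv)).trans ?_
      refine Nat.mul_le_mul_right _ (le_trans (le_of_eq ?_) hEn)
      exact Nat.card_congr (E.equivMapOfInjective _ (S.j_inj i)).symm.toEquiv
    have h3 : p ^ c.card ≤ p ^ n := by
      refine Nat.le_of_mul_le_mul_left (h1.trans ?_) (Nat.card_pos (α := C))
      rwa [mul_comm]
    exact (Nat.pow_le_pow_iff_right (Fact.out : p.Prime).one_lt).1 h3
  · intro F hF hlt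
    have hFs := hsplit F hF hlt
    refine ⟨⟨⟨hF.1.1.mono inf_le_left, lt_of_le_of_ne (le_inf hF.1.2.le hCY) fun e => ?_⟩,
      inf_le_right⟩, fun F' hF' hlt' =>
        lt_of_le_of_ne (inf_le_inf_right Y hlt'.le) fun e => ?_⟩
    · rw [← e, ← hsupσ, sup_comm] at hFs
      exact hlt.ne hFs.symm
    · have hFs' := hsplit F' hF' (hlt.trans hlt')
      rw [← e, ← hFs] at hFs'
      exact hlt'.ne hFs'.symm
  · intro t ht htc hne
    obtain ⟨h1, h2⟩ := hnonempty t ht hne htc
    have hsupY' : t.sup id ≤ Y := h1 ▸ hsupY t ht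
    have hTY : T ⊓ Y = C := by
      rw [hT, sup_comm]; exact hinfY _ _ (hsupσ ▸ hmle E) hCY
    rw [htp, h1]
    refine ⟨lt_of_le_of_ne (sup_le (h2.le.trans le_sup_right) le_sup_left) fun e => ?_,
      hinfY _ _ (hsupσ ▸ hmle E) hsupY'⟩
    have := congrArg (fun q => q ⊓ Y) e
    rw [hTY, hinfY _ _ (hsupσ ▸ hmle E) hsupY'] at this
    exact h2.ne this

include S in
/-- All components with pinned cycles can be removed. -/
theorem exists_link_of_pinned (k : Type) [Field k] (P : ι → Prop)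
    (hP : ∀ i, P i → HasPinnedCycle p (A i))
    (hrest : ∀ (Y : Type) [Group Y] [Finite Y] (K' : Subgroup Y),
      CompSys K' (fun i : {i // ¬ P i} => A i) →
        ∃ B : Subgroup Y, IsElem p B ∧ B ⊓ K' = ⊥ ∧ HasReducedHomology k (Lk p B)) :
    ∃ B : Subgroup X, IsElem p B ∧ B ⊓ K = ⊥ ∧ HasReducedHomology k (Lk p B) := by
  obtain ⟨B, hB, hBK, hhom⟩ := hrest _ _ (S.restrictSys P)
  set C := B.map (S.cenOf P).subtype with hC
  refine ⟨C, hB.map _, ?_, ?_⟩
  · rw [Subgroup.eq_bot_iff_forall]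
    rintro _ ⟨⟨b, hb, rfl⟩, hbK⟩
    have : b ∈ B ⊓ K.subgroupOf (S.cenOf P) := ⟨hb, hbK⟩
    rw [hBK, Subgroup.mem_bot] at this
    rw [this, map_one]
  have hdown : ∀ s : Finset ι, (∀ i ∈ s, P i) →
      HasReducedHomology k {E | E ∈ Lk p C ∧ E ≤ S.cenOf (· ∈ s)} →
      HasReducedHomology k (Lk p C) := by
    intro s
    induction s using Finset.induction_on with
    | empty =>
      intro _ h
      have : {E | E ∈ Lk p C ∧ E ≤ S.cenOf (· ∈ (∅ : Finset ι))} = Lk p C :=
        Set.ext fun E => ⟨fun h => h.1, fun h => ⟨h, fun g _ i hi => absurd hi (by simp)⟩⟩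
      rwa [this] at h
    | insert i s hi ih =>
      intro hs h
      refine ih (fun l hl => hs l (Finset.mem_insert_of_mem hl))
        (S.pinned_step k (hP i (hs i (Finset.mem_insert_self i s))) hi (hB.map _) ?_ h)
      rintro _ ⟨b, -, rfl⟩ l hl
      exact b.2 l (hs l hl)
  refine hdown (Finset.univ.filter P) (fun i hi => (Finset.mem_filter.1 hi).2) ?_
  have e : S.cenOf (· ∈ Finset.univ.filter P) = S.cenOf P := by
    ext g
    exact ⟨fun h i hi => h i (Finset.mem_filter.2 ⟨Finset.mem_univ i, hi⟩),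
      fun h i hi => h i (Finset.mem_filter.1 hi).2⟩
  rw [e]
  exact link_of_subgroup k (S.cenOf P) B hhom

end CompSys

end Vale.Agent.P240
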