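import Vale.Agent.P240.Pinned.PSL2Aut
import Vale.Agent.P240.Pinned.Eliminate

/-!
# `PSL(2, q)` has a pinned cycle at the prime two

For odd `q ≥ 7` without field automorphism of order two, a four-group `E` of `PSL(2, q)` is its own
centraliser among involutory automorphisms, and the incidence graph of involutions and images of
`E` has more edges than vertices, hence a cycle.
-/

set_option linter.unusedSectionVars false

open scoped Classical
open Matrix Matrix.SpecialLinearGroup

noncomputable section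

namespace Vale.Agent.P240

namespace PSL2

variable {F : Type} [Field F]

/-- The first element of order four. -/
def qi (F : Type) [Field F] : S2 F := wm 1 one_ne_zero

/-- An element of order four anticommuting with `qi`. -/
def qj (a b : F) (h : a ^ 2 + b ^ 2 = -1) : S2 F := mk a b b (-a) (by linear_combination -h)

theorem qi_coe : (qi F : Matrix (Fin 2) (Fin 2) F) = !![0, 1; -1, 0] := by
  rw [qi, wm_coe, inv_one]

theorem qj_coe (a b : F) (h : a ^ 2 + b ^ 2 = -1) :
    (qj a b h : Matrix (Fin 2) (Fin 2) F) = !![a, b; b, -a] := rfl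

section quaternion

variable {a b : F} (h : a ^ 2 + b ^ 2 = -1)

/-- The product of `qi` and `qj`. -/
def qk : S2 F := qi F * qj a b h

theorem qk_coe : (qk h : Matrix (Fin 2) (Fin 2) F) = !![b, -a; -a, -b] := by
  rw [qk, coe_mul, qi_coe, qj_coe]
  ext i j; fin_cases i <;> fin_cases j <;> simp

theorem qi_sq : (qi F : Matrix (Fin 2) (Fin 2) F) * (qi F : Matrix (Fin 2) (Fin 2) F) = -1 := by
  rw [qi_coe]; ext i j; fin_cases i <;> fin_cases j <;> simp

theorem qj_sq : (qj a b h : Matrix (Fin 2) (Fin 2) F) * (qj a b h : Matrix (Fin 2) (Fin 2) F)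
    = -1 := by
  rw [qj_coe]
  ext i j; fin_cases i <;> fin_cases j <;> simp <;>
    first | linear_combination h | ring

theorem qk_sq : (qk h : Matrix (Fin 2) (Fin 2) F) * (qk h : Matrix (Fin 2) (Fin 2) F) = -1 := by
  rw [qk_coe]
  ext i j; fin_cases i <;> fin_cases j <;> simp <;>
    first | linear_combination h | ring

theorem qj_qi : (qj a b h : Matrix (Fin 2) (Fin 2) F) * (qi F : Matrix (Fin 2) (Fin 2) F) =
    -((qi F : Matrix (Fin 2) (Fin 2) F) * (qj a b h : Matrix (Fin 2) (Fin 2) F)) := by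
  rw [qi_coe, qj_coe]
  ext i j; fin_cases i <;> fin_cases j <;> simp

theorem q2_qi_sq : q2 F (qi F) * q2 F (qi F) = 1 := by
  rw [← map_mul, ← map_one (q2 F), q2_eq_iff, coe_mul, qi_sq, coe_one]
  exact Or.inr (by rw [neg_neg])

theorem q2_qj_sq : q2 F (qj a b h) * q2 F (qj a b h) = 1 := by
  rw [← map_mul, ← map_one (q2 F), q2_eq_iff, coe_mul, qj_sq, coe_one]
  exact Or.inr (by rw [neg_neg])

theorem q2_comm : q2 F (qi F) * q2 F (qj a b h) = q2 F (qj a b h) * q2 F (qi F) := by
  rw [← map_mul, ← map_mul, q2_eq_iff, coe_mul, coe_mul]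
  exact Or.inr (qj_qi h)

/-- The four-group. -/
def E0 : Subgroup (P2 F) where
  carrier := {x | x = 1 ∨ x = q2 F (qi F) ∨ x = q2 F (qj a b h) ∨ x = q2 F (qk h)}
  one_mem' := Or.inl rfl
  mul_mem' := by
    have i2 := q2_qi_sq (F := F)
    have j2 := q2_qj_sq h
    have c := q2_comm h
    have k1 : q2 F (qk h) = q2 F (qi F) * q2 F (qj a b h) := map_mul _ _ _
    intro x y hx hy
    simp only [k1, Set.mem_ofPred_eq] at hx hy ⊢
    generalize q2 F (qi F) = I at i2 c hx hy ⊢
    generalize q2 F (qj a b h) = J at j2 c hx hy ⊢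
    have c1 : ∀ z, I * (I * z) = z := fun z => by rw [← mul_assoc, i2, one_mul]
    have c3 : ∀ z, J * (I * z) = I * (J * z) := fun z => by rw [← mul_assoc, ← c, mul_assoc]
    rcases hx with rfl | rfl | rfl | rfl <;> rcases hy with rfl | rfl | rfl | rfl <;>
      simp [mul_assoc, i2, j2, c1, c3, ← c]
  inv_mem' := by
    intro x hx
    simp only [Set.mem_ofPred_eq] at hx ⊢
    have k2 : q2 F (qk h) * q2 F (qk h) = 1 := by
      rw [← map_mul, ← map_one (q2 F), q2_eq_iff, coe_mul, qk_sq, coe_one]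
      exact Or.inr (by rw [neg_neg])
    rcases hx with rfl | rfl | rfl | rfl
    · simp
    · exact Or.inr (Or.inl (inv_eq_of_mul_eq_one_right q2_qi_sq))
    · exact Or.inr (Or.inr (Or.inl (inv_eq_of_mul_eq_one_right (q2_qj_sq h))))
    · exact Or.inr (Or.inr (Or.inr (inv_eq_of_mul_eq_one_right k2)))

theorem mem_E0 {x : P2 F} : x ∈ E0 h ↔
    x = 1 ∨ x = q2 F (qi F) ∨ x = q2 F (qj a b h) ∨ x = q2 F (qk h) := Iff.rfl

theorem qi_mem : q2 F (qi F) ∈ E0 h := Or.inr (Or.inl rfl)

theorem qj_mem : q2 F (qj a b h) ∈ E0 h := Or.inr (Or.inr (Or.inl rfl))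

theorem qk_mem : q2 F (qk h) ∈ E0 h := Or.inr (Or.inr (Or.inr rfl))

theorem isElem_E0 : IsElem 2 (E0 h) := by
  have i2 := q2_qi_sq (F := F)
  have j2 := q2_qj_sq h
  have c := q2_comm h
  have k1 : q2 F (qk h) = q2 F (qi F) * q2 F (qj a b h) := map_mul _ _ _
  refine ⟨fun x hx y hy => ?_, fun x hx => ?_⟩
  · simp only [mem_E0, k1] at hx hy
    generalize q2 F (qi F) = I at i2 c hx hy ⊢
    generalize q2 F (qj a b h) = J at j2 c hx hy ⊢
    have c3 : ∀ z, J * (I * z) = I * (J * z) := fun z => by rw [← mul_assoc, ← c, mul_assoc]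
    rcases hx with rfl | rfl | rfl | rfl <;> rcases hy with rfl | rfl | rfl | rfl <;>
      simp [mul_assoc, c3, ← c]
  · rcases (mem_E0 h).1 hx with rfl | rfl | rfl | rfl
    · simp
    · rw [pow_two, i2]
    · rw [pow_two, j2]
    · rw [pow_two, ← map_mul, ← map_one (q2 F), q2_eq_iff, coe_mul, qk_sq, coe_one]
      exact Or.inr (by rw [neg_neg])

variable (h2 : (2 : F) ≠ 0)

include h h2 in
theorem qj_independent {x y : F}
    (e : x • (qj a b h : Matrix (Fin 2) (Fin 2) F) + y • (qk h : Matrix (Fin 2) (Fin 2) F) = 0) :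
    x = 0 ∧ y = 0 := by
  rw [qj_coe, qk_coe] at e
  have e1 := congrFun (congrFun e 0) 0
  have e2 := congrFun (congrFun e 0) 1
  simp at e1 e2
  exact ⟨by linear_combination (-a) * e1 - b * e2 + x * h,
    by linear_combination (-b) * e1 + a * e2 + y * h⟩

include h h2 in
/-- The four elements are distinct. -/
theorem card_E0 : Nat.card (E0 h) = 4 := by
  have hii : q2 F (qi F) ≠ 1 := fun e => by
    rw [← map_one (q2 F)] at e
    rcases q2_eq_iff.1 e with e | e <;>
    · have := congrFun (congrFun e 0) 1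
      simp [qi_coe] at this
  have hjj : q2 F (qj a b h) ≠ 1 ∧ q2 F (qi F) ≠ q2 F (qj a b h) := by
    refine ⟨fun e => ?_, fun e => ?_⟩
    · rw [← map_one (q2 F)] at e
      rcases q2_eq_iff.1 e with e | e
      · have e1 := congrFun (congrFun e 0) 0
        have e2 := congrFun (congrFun e 1) 1
        simp [qj_coe] at e1 e2
        exact h2 (by linear_combination e1 + e2)
      · have e1 := congrFun (congrFun e 0) 0
        have e2 := congrFun (congrFun e 1) 1
        simp [qj_coe] at e1 e2
        exact h2 (by linear_combination e1 + e2)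
    · rcases q2_eq_iff.1 e with e | e
      · have e1 := congrFun (congrFun e 0) 1
        have e2 := congrFun (congrFun e 1) 0
        simp [qj_coe, qi_coe] at e1 e2
        exact h2 (by linear_combination e2 - e1)
      · have e1 := congrFun (congrFun e 0) 1
        have e2 := congrFun (congrFun e 1) 0
        simp [qj_coe, qi_coe] at e1 e2
        exact h2 (by linear_combination e1 - e2)
  have k1 : q2 F (qk h) = q2 F (qi F) * q2 F (qj a b h) := map_mul _ _ _
  have e : (E0 h : Set (P2 F)) = {1, q2 F (qi F), q2 F (qj a b h), q2 F (qk h)} := by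
    ext x; simp [mem_E0]
  rw [← SetLike.coe_sort_coe, e, Nat.card_coe_set_eq, Set.ncard_eq_four]
  refine ⟨_, _, _, _, Ne.symm hii, Ne.symm hjj.1, ?_, hjj.2, ?_, ?_, rfl⟩ <;> rw [k1]
  · intro e'
    exact hjj.2 ((inv_eq_of_mul_eq_one_right q2_qi_sq).symm.trans
      (inv_eq_of_mul_eq_one_right e'.symm))
  · intro e'
    exact hjj.1 (by simpa using e'.symm)
  · intro e'
    exact hii (by simpa using e'.symm)

include h h2 in
/-- Matrices commuting with `qi` and `qj` are scalar. -/
theorem scalar_of_commute {M : Matrix (Fin 2) (Fin 2) F}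
    (hi : M * (qi F : Matrix (Fin 2) (Fin 2) F) = (qi F : Matrix (Fin 2) (Fin 2) F) * M)
    (hj : M * (qj a b h : Matrix (Fin 2) (Fin 2) F) = (qj a b h : Matrix (Fin 2) (Fin 2) F) * M) :
    ∃ c : F, M = c • 1 := by
  rw [qi_coe] at hi
  rw [qj_coe] at hj
  have i1 := congrFun (congrFun hi 0) 0
  have i2 := congrFun (congrFun hi 0) 1
  have j1 := congrFun (congrFun hj 0) 0
  have j2 := congrFun (congrFun hj 0) 1
  simp [Matrix.mul_apply, Fin.sum_univ_two] at i1 i2 j1 j2
  have hy : M 0 1 = 0 := by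
    have h4 : (2 : F) * M 0 1 * (a ^ 2 + b ^ 2) = 0 := by
      linear_combination b * j1 - a * j2 - b ^ 2 * i1 + a * b * i2
    rw [h, mul_neg_one, neg_eq_zero] at h4
    exact (mul_eq_zero.1 h4).resolve_left h2
  refine ⟨M 0 0, ?_⟩
  ext i j
  fin_cases i <;> fin_cases j
  · simp
  · simpa using hy
  · simp; linear_combination -i1 - hy
  · simp; linear_combination -i2

end quaternion

variable [Finite F] {r : ℕ} [Fact r.Prime] [CharP F r]

/-- Conjugation by an invertible matrix, as an automorphism. -/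
def conjAut (M : Matrix (Fin 2) (Fin 2) F) (hM : M.det ≠ 0) : MulAut (P2 F) :=
  let f : P2 F →* P2 F := QuotientGroup.lift (Subgroup.center (S2 F))
    ((q2 F).comp (semi M hM (RingEquiv.refl F))) (fun x hx => by
      obtain ⟨c, hc, he⟩ := mem_center_iff.1 hx
      rw [MonoidHom.mem_ker, MonoidHom.comp_apply, ← MonoidHom.mem_ker, QuotientGroup.ker_mk',
        mem_center_iff]
      refine ⟨c, hc, ?_⟩
      rw [semi_coe, RingEquiv.coe_refl, Matrix.map_id, ← he]
      rw [show M * scalar (Fin 2) c = scalar (Fin 2) c * M from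
        (scalar_commute c (fun _ => Commute.all _ _) M).symm.eq, Matrix.mul_assoc,
        Matrix.mul_nonsing_inv _ (isUnit_iff_ne_zero.2 hM), Matrix.mul_one])
  MulEquiv.ofBijective f (by
    refine Finite.injective_iff_bijective.1 ((injective_iff_map_eq_one f).2 fun y hy => ?_)
    obtain ⟨x, rfl⟩ := QuotientGroup.mk'_surjective _ y
    have hy' : q2 F (semi M hM (RingEquiv.refl F) x) = q2 F 1 := by rw [map_one]; exact hy
    show q2 F x = 1
    rw [← map_one (q2 F), q2_eq_iff]
    have hu := isUnit_iff_ne_zero.2 hM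
    rcases q2_eq_iff.1 hy' with e | e
    · refine Or.inl ?_
      rw [semi_coe, RingEquiv.coe_refl, Matrix.map_id, coe_one] at e
      have := congrArg (fun Z => M⁻¹ * Z * M) e
      simpa [Matrix.mul_assoc, Matrix.nonsing_inv_mul _ hu,
        Matrix.nonsing_inv_mul_cancel_left _ _ hu] using this
    · refine Or.inr ?_
      rw [semi_coe, RingEquiv.coe_refl, Matrix.map_id, coe_one] at e
      have := congrArg (fun Z => M⁻¹ * Z * M) e
      simpa [Matrix.mul_assoc, Matrix.nonsing_inv_mul _ hu,
        Matrix.nonsing_inv_mul_cancel_left _ _ hu] using this)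

theorem conjAut_eq {M : Matrix (Fin 2) (Fin 2) F} (hM : M.det ≠ 0) {x y : S2 F}
    (e : M * (x : Matrix (Fin 2) (Fin 2) F) = (y : Matrix (Fin 2) (Fin 2) F) * M) :
    conjAut M hM (q2 F x) = q2 F y := by
  show q2 F (semi M hM (RingEquiv.refl F) x) = q2 F y
  congr 1
  refine Subtype.ext ?_
  rw [semi_coe, RingEquiv.coe_refl, Matrix.map_id, e, Matrix.mul_assoc,
    Matrix.mul_nonsing_inv _ (isUnit_iff_ne_zero.2 hM), Matrix.mul_one]

variable (h2 : (2 : F) ≠ 0) {a b : F} (h : a ^ 2 + b ^ 2 = -1)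

include h h2 in
/-- Involutory automorphisms fixing the four-group pointwise come from the four-group. -/
theorem pinned_E0 (r : ℕ) [Fact r.Prime] [CharP F r]
    (hσ : ∀ σ : F ≃+* F, (∀ x, σ (σ x) = x) → σ = RingEquiv.refl F)
    (α : MulAut (P2 F)) (hα : α ^ 2 = 1) (hfix : ∀ e ∈ E0 h, α e = e) :
    ∃ e ∈ E0 h, α = MulAut.conj e := by
  obtain ⟨M, hM, σ, hM'⟩ := exists_semi h2 r α
  have hu := isUnit_iff_ne_zero.2 hM
  -- the field automorphism is trivial
  set N := M * M.map σ with hN
  have hmapdet : (M.map σ).det ≠ 0 := by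
    have := (RingHom.map_det (σ : F →+* F) M).symm
    intro e0
    exact hM (σ.injective (by rw [map_zero]; exact this.symm.trans e0))
  have hNd : N.det ≠ 0 := by rw [hN, det_mul]; exact mul_ne_zero hM hmapdet
  have hinv : M⁻¹.map σ * M.map σ = 1 := by
    rw [← Matrix.map_mul, Matrix.nonsing_inv_mul _ hu, Matrix.map_one _ (map_zero σ) (map_one σ)]
  have hN2 : ∀ x : S2 F,
      N * (x : Matrix (Fin 2) (Fin 2) F).map (σ ∘ σ) = (x : Matrix (Fin 2) (Fin 2) F) * N ∨
      N * (x : Matrix (Fin 2) (Fin 2) F).map (σ ∘ σ) = -((x : Matrix (Fin 2) (Fin 2) F) * N) := by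
    intro x
    have e : q2 F (semi M hM σ (semi M hM σ x)) = q2 F x := by
      rw [← hM', ← hM', ← MulAut.mul_apply, ← pow_two, hα, MulAut.one_apply]
    have key : (semi M hM σ (semi M hM σ x) : Matrix (Fin 2) (Fin 2) F) * N =
        N * (x : Matrix (Fin 2) (Fin 2) F).map (σ ∘ σ) := by
      rw [semi_coe, semi_coe, Matrix.map_mul, Matrix.map_mul, Matrix.map_map, hN]
      calc M * (M.map σ * (x : Matrix (Fin 2) (Fin 2) F).map (σ ∘ σ) * M⁻¹.map σ) * M⁻¹ *
            (M * M.map σ)
          = M * (M.map σ * (x : Matrix (Fin 2) (Fin 2) F).map (σ ∘ σ) * M⁻¹.map σ) *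
              ((M⁻¹ * M) * M.map σ) := by simp only [Matrix.mul_assoc]
        _ = M * (M.map σ * (x : Matrix (Fin 2) (Fin 2) F).map (σ ∘ σ)) *
              (M⁻¹.map σ * M.map σ) := by
            rw [Matrix.nonsing_inv_mul _ hu, Matrix.one_mul]; simp only [Matrix.mul_assoc]
        _ = _ := by rw [hinv, Matrix.mul_one, Matrix.mul_assoc]
    rcases q2_eq_iff.1 e with e | e
    · exact Or.inl (by rw [← key, e])
    · exact Or.inr (by rw [← key, e, Matrix.neg_mul, neg_neg])
  have hdet := hNd
  rw [Matrix.det_fin_two] at hdet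
  have hN10 : N 1 0 = 0 ∧ N 0 0 = N 1 1 := by
    rcases hN2 (u 1) with e | e
    · have e00 := congrFun (congrFun e 0) 0
      have e01 := congrFun (congrFun e 0) 1
      simp [u_coe, Matrix.mul_apply, Fin.sum_univ_two] at e00 e01
      exact ⟨e00, by linear_combination e01⟩
    · exfalso
      have e10 := congrFun (congrFun e 1) 0
      have e00 := congrFun (congrFun e 0) 0
      have e11 := congrFun (congrFun e 1) 1
      simp [u_coe, Matrix.mul_apply, Matrix.vecMul, dotProduct, Fin.sum_univ_two] at e10 e00 e11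
      have h10 : N 1 0 = 0 := (mul_eq_zero.1
        (show (2 : F) * N 1 0 = 0 by linear_combination e10)).resolve_left h2
      have h00 : N 0 0 = 0 := (mul_eq_zero.1
        (show (2 : F) * N 0 0 = 0 by linear_combination e00 - h10)).resolve_left h2
      exact hdet (by rw [h00, h10]; ring)
  have hN01 : N 0 1 = 0 := by
    rcases hN2 (l 1) with e | e <;>
    · have e00 := congrFun (congrFun e 0) 0
      simp [l_coe, Matrix.mul_apply, Matrix.vecMul, dotProduct, Fin.sum_univ_two] at e00
      first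
        | exact e00
        | have e01 := congrFun (congrFun e 0) 1
          simp [l_coe, Matrix.mul_apply, Matrix.vecMul, dotProduct, Fin.sum_univ_two] at e01
          exact (mul_eq_zero.1
            (show (2 : F) * N 0 1 = 0 by linear_combination e01)).resolve_left h2
  have hσ1 : σ = RingEquiv.refl F := by
    refine hσ σ fun t => ?_
    have h11 : N 1 1 ≠ 0 := fun e => hdet (by rw [hN10.1, e]; ring)
    rcases hN2 (u t) with e | e
    · have e01 := congrFun (congrFun e 0) 1
      simp [u_coe, Matrix.mul_apply, Fin.sum_univ_two, hN01, hN10.2] at e01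
      rcases mul_eq_mul_left_iff.1 (show N 1 1 * σ (σ t) = N 1 1 * t by linear_combination e01)
        with e' | e'
      · exact e'
      · exact absurd e' h11
    · exfalso
      have e00 := congrFun (congrFun e 0) 0
      simp [u_coe, Matrix.mul_apply, Matrix.vecMul, dotProduct, Fin.sum_univ_two, hN10.1, hN10.2] at e00
      exact h11 ((mul_eq_zero.1
        (show (2 : F) * N 1 1 = 0 by linear_combination e00)).resolve_left h2)
  subst hσ1
  -- the signs on `qi` and `qj`
  have hsign : ∀ x : S2 F, q2 F x ∈ E0 h →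
      M * (x : Matrix (Fin 2) (Fin 2) F) = (x : Matrix (Fin 2) (Fin 2) F) * M ∨
      M * (x : Matrix (Fin 2) (Fin 2) F) = -((x : Matrix (Fin 2) (Fin 2) F) * M) := by
    intro x hx
    have e := hM' x
    rw [hfix _ hx] at e
    have key : (semi M hM (RingEquiv.refl F) x : Matrix (Fin 2) (Fin 2) F) * M =
        M * (x : Matrix (Fin 2) (Fin 2) F) := by
      rw [semi_coe, RingEquiv.coe_refl, Matrix.map_id, Matrix.mul_assoc,
        Matrix.nonsing_inv_mul _ hu, Matrix.mul_one]
    rcases q2_eq_iff.1 e with e | e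
    · exact Or.inl (by rw [← key, e])
    · exact Or.inr (by rw [← key, e, Matrix.neg_mul])
  -- a member of the group with the same signs
  obtain ⟨g, hg, hgi, hgj⟩ : ∃ g : S2 F, q2 F g ∈ E0 h ∧
      ((g : Matrix (Fin 2) (Fin 2) F) * M * (qi F : Matrix (Fin 2) (Fin 2) F) =
        (qi F : Matrix (Fin 2) (Fin 2) F) * ((g : Matrix (Fin 2) (Fin 2) F) * M)) ∧
      ((g : Matrix (Fin 2) (Fin 2) F) * M * (qj a b h : Matrix (Fin 2) (Fin 2) F) =
        (qj a b h : Matrix (Fin 2) (Fin 2) F) * ((g : Matrix (Fin 2) (Fin 2) F) * M)) := by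
    set I := (qi F : Matrix (Fin 2) (Fin 2) F) with hI
    set J := (qj a b h : Matrix (Fin 2) (Fin 2) F) with hJ
    have hJI : J * I = -(I * J) := qj_qi h
    have hIJ : I * J = -(J * I) := by rw [hJI, neg_neg]
    have hK : (qk h : Matrix (Fin 2) (Fin 2) F) = I * J := coe_mul _ _
    rcases hsign _ (qi_mem h) with ei | ei <;> rcases hsign _ (qj_mem h) with ej | ej
    · exact ⟨1, by rw [map_one]; exact (E0 h).one_mem, by rw [coe_one, one_mul, ei],
        by rw [coe_one, one_mul, ej]⟩
    · refine ⟨qi F, qi_mem h, ?_, ?_⟩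
      · rw [Matrix.mul_assoc, ei, ← hI]
      · rw [← hI, Matrix.mul_assoc, ej, Matrix.mul_neg, ← Matrix.mul_assoc, hIJ, Matrix.neg_mul,
          neg_neg, Matrix.mul_assoc]
    · refine ⟨qj a b h, qj_mem h, ?_, ?_⟩
      · rw [← hJ, Matrix.mul_assoc, ei, Matrix.mul_neg, ← Matrix.mul_assoc, hJI, Matrix.neg_mul,
          neg_neg, Matrix.mul_assoc]
      · rw [Matrix.mul_assoc, ej, ← hJ]
    · refine ⟨qk h, qk_mem h, ?_, ?_⟩
      · rw [hK, Matrix.mul_assoc (I * J), ei, Matrix.mul_neg, ← Matrix.mul_assoc (I * J),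
          Matrix.mul_assoc I J I, hJI, Matrix.mul_neg, Matrix.neg_mul, neg_neg]
        simp only [Matrix.mul_assoc]
      · rw [hK, Matrix.mul_assoc (I * J), ej, Matrix.mul_neg, ← Matrix.mul_assoc (I * J),
          ← Matrix.mul_assoc J, ← Matrix.mul_assoc J, hJI, Matrix.neg_mul, Matrix.neg_mul]
  obtain ⟨c, hc⟩ := scalar_of_commute h h2 hgi hgj
  set gi : Matrix (Fin 2) (Fin 2) F := ((g⁻¹ : S2 F) : Matrix (Fin 2) (Fin 2) F) with hgi'
  have hgg : gi * (g : Matrix (Fin 2) (Fin 2) F) = 1 := by
    rw [hgi', ← coe_mul, inv_mul_cancel, coe_one]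
  have hMg : M = c • gi := by
    calc M = gi * ((g : Matrix (Fin 2) (Fin 2) F) * M) := by
          rw [← Matrix.mul_assoc, hgg, Matrix.one_mul]
      _ = _ := by rw [hc, Matrix.mul_smul, Matrix.mul_one]
  refine ⟨(q2 F g)⁻¹, (E0 h).inv_mem hg, MulEquiv.ext fun y => ?_⟩
  obtain ⟨x, rfl⟩ := QuotientGroup.mk'_surjective _ y
  rw [hM', MulAut.conj_apply, inv_inv, ← map_inv, ← map_mul, ← map_mul]
  congr 1
  refine Subtype.ext ?_
  have e1 : M * (x : Matrix (Fin 2) (Fin 2) F) = gi * (x : Matrix (Fin 2) (Fin 2) F) *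
      (g : Matrix (Fin 2) (Fin 2) F) * M := by
    rw [hMg, Matrix.mul_smul, Matrix.smul_mul, Matrix.mul_assoc (gi * _),
      mul_eq_one_comm.1 hgg, Matrix.mul_one]
  rw [semi_coe, coe_mul, coe_mul, RingEquiv.coe_refl, Matrix.map_id, e1, Matrix.mul_assoc _ M,
    Matrix.mul_nonsing_inv _ hu, Matrix.mul_one]

include h2 h in
/-- Every involution of the four-group lies in a second image of it. -/
theorem exists_other (h7 : 7 ≤ Nat.card F) {x : P2 F} (hx : x ∈ E0 h) (hx1 : x ≠ 1) :
    ∃ δ : MulAut (P2 F), δ x = x ∧ (E0 h).map δ.toMonoidHom ≠ E0 h := by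
  let : Fintype F := Fintype.ofFinite F
  obtain ⟨y, hy⟩ : ∃ y : F, y ^ 5 ≠ y := by
    by_contra hno
    push Not at hno
    have hle : Fintype.card F ≤ 5 := by
      have h1 : (Finset.univ : Finset F) ⊆ ((Polynomial.X ^ 5 - Polynomial.X : Polynomial F)).roots.toFinset := by
        intro z _
        rw [Multiset.mem_toFinset, Polynomial.mem_roots']
        exact ⟨FiniteField.X_pow_card_sub_X_ne_zero F (by norm_num), by simp [hno z]⟩
      refine (Finset.card_le_card h1).trans ((Multiset.toFinset_card_le _).trans ?_)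
      refine (Polynomial.card_roots' _).trans ?_
      rw [FiniteField.X_pow_card_sub_X_natDegree_eq F (by norm_num)]
    rw [Nat.card_eq_fintype_card] at h7
    omega
  have hy0 : y ≠ 0 := fun e => hy (by rw [e]; ring)
  have hp1 : y ^ 2 + 1 ≠ 0 := fun e => hy (by linear_combination (y ^ 3 - y) * e)
  have hm1 : y ^ 2 - 1 ≠ 0 := fun e => hy (by linear_combination (y ^ 3 + y) * e)
  set T : Matrix (Fin 2) (Fin 2) F := !![1, y; -y, 1] with hT
  have hTd : T.det ≠ 0 := by
    rw [hT, Matrix.det_fin_two_of]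
    intro e; exact hp1 (by linear_combination e)
  set δ := conjAut T hTd with hδ
  have hδi : δ (q2 F (qi F)) = q2 F (qi F) := conjAut_eq hTd (by
    rw [qi_coe, hT]; ext i j; fin_cases i <;> fin_cases j <;> simp)
  have hδj : δ (q2 F (qj a b h)) ∉ E0 h := by
    intro hm
    have key : ∀ z : S2 F, δ (q2 F (qj a b h)) = q2 F z →
        ∃ ε : F, ε ≠ 0 ∧ T * (qj a b h : Matrix (Fin 2) (Fin 2) F) =
          ε • ((z : Matrix (Fin 2) (Fin 2) F) * T) := by
      intro z hz
      have e : q2 F (semi T hTd (RingEquiv.refl F) (qj a b h)) = q2 F z := hz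
      have k : (semi T hTd (RingEquiv.refl F) (qj a b h) : Matrix (Fin 2) (Fin 2) F) * T =
          T * (qj a b h : Matrix (Fin 2) (Fin 2) F) := by
        rw [semi_coe, RingEquiv.coe_refl, Matrix.map_id, Matrix.mul_assoc,
          Matrix.nonsing_inv_mul _ (isUnit_iff_ne_zero.2 hTd), Matrix.mul_one]
      rcases q2_eq_iff.1 e with e | e
      · exact ⟨1, one_ne_zero, by rw [← k, e, one_smul]⟩
      · exact ⟨-1, by simp, by rw [← k, e, Matrix.neg_mul, neg_one_smul, neg_neg]⟩
    have hTj : T * (qj a b h : Matrix (Fin 2) (Fin 2) F) =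
        !![a + y * b, b - y * a; b - y * a, -(a + y * b)] := by
      rw [hT, qj_coe]
      ext i j; fin_cases i <;> fin_cases j <;> simp <;> ring
    rcases (mem_E0 h).1 hm with e | e | e | e
    · obtain ⟨ε, hε, e⟩ := key 1 (by rw [map_one]; exact e)
      rw [hTj, coe_one, Matrix.one_mul, hT] at e
      have e00 := congrFun (congrFun e 0) 0
      have e11 := congrFun (congrFun e 1) 1
      simp at e00 e11
      exact hε ((mul_eq_zero.1
        (show (2 : F) * ε = 0 by linear_combination -(e00 + e11))).resolve_left h2)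
    · obtain ⟨ε, hε, e⟩ := key _ e
      rw [hTj, qi_coe, hT] at e
      have e00 := congrFun (congrFun e 0) 0
      have e11 := congrFun (congrFun e 1) 1
      simp at e00 e11
      exact hy0 ((mul_eq_zero.1 ((mul_eq_zero.1 (show (2 : F) * (ε * y) = 0 by
        linear_combination e00 + e11)).resolve_left h2)).resolve_left hε)
    · obtain ⟨ε, hε, e⟩ := key _ e
      rw [hTj, qj_coe, hT] at e
      have e00 := congrFun (congrFun e 0) 0
      have e01 := congrFun (congrFun e 0) 1
      simp at e00 e01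
      have f1 : 1 - ε = 0 := by
        linear_combination -(a * e00) - b * e01 + (1 - ε) * h
      have f2 : y * (1 + ε) = 0 := by
        linear_combination -(b * e00) + a * e01 + y * (1 + ε) * h
      exact hy0 ((mul_eq_zero.1 f2).resolve_right fun e' =>
        h2 (by linear_combination e' + f1))
    · obtain ⟨ε, hε, e⟩ := key _ e
      rw [hTj, qk_coe, hT] at e
      have e00 := congrFun (congrFun e 0) 0
      have e01 := congrFun (congrFun e 0) 1
      simp at e00 e01
      have f1 : 1 - ε * y = 0 := by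
        linear_combination -(a * e00) - b * e01 + (1 - ε * y) * h
      have f2 : y - ε = 0 := by
        linear_combination -(b * e00) + a * e01 + (y - ε) * h
      exact hm1 (by linear_combination -f1 + y * f2)
  -- the rotation of the three involutions
  set P : Matrix (Fin 2) (Fin 2) F := !![1 + a + b, 1 + b - a; b - a - 1, 1 - a - b] with hP
  have hPd : P.det ≠ 0 := by
    rw [hP, Matrix.det_fin_two_of]
    intro e
    exact pow_ne_zero 2 h2 (by linear_combination e + 2 * h)
  set ρ := conjAut P hPd with hρ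
  have hρi : ρ (q2 F (qi F)) = q2 F (qj a b h) := conjAut_eq hPd (by
    rw [hP, qi_coe, qj_coe]
    ext i j; fin_cases i <;> fin_cases j <;> simp <;>
      first | linear_combination h | linear_combination -h)
  have hρj : ρ (q2 F (qj a b h)) = q2 F (qk h) := conjAut_eq hPd (by
    rw [hP, qj_coe, qk_coe]
    ext i j; fin_cases i <;> fin_cases j <;> simp <;>
      first | linear_combination h | linear_combination -h | ring)
  have hρk : ρ (q2 F (qk h)) = q2 F (qi F) := conjAut_eq hPd (by
    rw [hP, qi_coe, qk_coe]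
    ext i j; fin_cases i <;> fin_cases j <;> simp <;>
      first | linear_combination h | linear_combination -h)
  have hρE : (E0 h).map ρ.toMonoidHom = E0 h := by
    refine Subgroup.eq_of_le_of_card_ge ?_ (le_of_eq ?_)
    · rintro _ ⟨z, hz, rfl⟩
      rcases (mem_E0 h).1 hz with rfl | rfl | rfl | rfl
      · simp
      · exact hρi ▸ qj_mem h
      · exact hρj ▸ qk_mem h
      · exact hρk ▸ qi_mem h
    · exact Nat.card_congr ((E0 h).equivMapOfInjective _ ρ.injective).toEquiv
  have hmove : ∀ (π : MulAut (P2 F)), (E0 h).map π.toMonoidHom = E0 h →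
      π (q2 F (qi F)) = x → ∃ δ' : MulAut (P2 F), δ' x = x ∧ (E0 h).map δ'.toMonoidHom ≠ E0 h := by
    intro π hπ hπx
    refine ⟨π * δ * π⁻¹, by
      rw [← hπx, MulAut.mul_apply, MulAut.mul_apply, MulAut.inv_apply_self, hδi],
      fun e => hδj ?_⟩
    have hmem : π (q2 F (qj a b h)) ∈ E0 h := by
      have : π.toMonoidHom (q2 F (qj a b h)) ∈ (E0 h).map π.toMonoidHom :=
        Subgroup.mem_map_of_mem _ (qj_mem h)
      rwa [hπ] at this
    have : (π * δ * π⁻¹) (π (q2 F (qj a b h))) ∈ (E0 h).map π.toMonoidHom := by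
      rw [hπ]
      have : (π * δ * π⁻¹).toMonoidHom (π (q2 F (qj a b h))) ∈
          (E0 h).map (π * δ * π⁻¹).toMonoidHom := Subgroup.mem_map_of_mem _ hmem
      rwa [e] at this
    obtain ⟨z, hz, hze⟩ := this
    simp [MulAut.mul_apply] at hze
    exact hze ▸ hz
  rcases (mem_E0 h).1 hx with rfl | rfl | rfl | rfl
  · exact absurd rfl hx1
  · exact ⟨δ, hδi, fun e => hδj (by
      have : δ.toMonoidHom (q2 F (qj a b h)) ∈ (E0 h).map δ.toMonoidHom :=
        Subgroup.mem_map_of_mem _ (qj_mem h)
      rwa [e] at this)⟩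
  · exact hmove ρ hρE hρi
  · refine hmove (ρ * ρ) ?_ (by rw [MulAut.mul_apply, hρi, hρj])
    rw [show (ρ * ρ).toMonoidHom = ρ.toMonoidHom.comp ρ.toMonoidHom from rfl, ← Subgroup.map_map,
      hρE, hρE]

end PSL2

end Vale.Agent.P240
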