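import Vale.Agent.P240.Robinson.Linear

/-!
# Automorphisms of `PSL(2, F)` in odd characteristic

Every automorphism is conjugation by an invertible matrix composed with a field automorphism.
-/

set_option linter.unusedSectionVars false

open scoped Classical
open Matrix Matrix.SpecialLinearGroup

noncomputable section

namespace Vale.Agent.P240

namespace PSL2

variable {F : Type} [Field F]

/-- `SL(2, F)`. -/
abbrev S2 (F : Type) [Field F] := Linear.SLG 0 F

/-- `PSL(2, F)`. -/
abbrev P2 (F : Type) [Field F] := Linear.PSLG 0 F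

/-- The quotient map. -/
abbrev q2 (F : Type) [Field F] : S2 F →* P2 F := Linear.qm 0 F

/-- An element with given entries. -/
def mk (a b c d : F) (h : a * d - b * c = 1) : S2 F :=
  ⟨!![a, b; c, d], by simp [Matrix.det_fin_two, h]⟩

/-- Upper unipotent elements. -/
def u (a : F) : S2 F := mk 1 a 0 1 (by ring)

/-- Lower unipotent elements. -/
def l (a : F) : S2 F := mk 1 0 a 1 (by ring)

/-- The Weyl elements. -/
def wm (a : F) (ha : a ≠ 0) : S2 F := mk 0 a (-a⁻¹) 0 (by field_simp; ring)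

theorem u_coe (a : F) : (u a : Matrix (Fin 2) (Fin 2) F) = !![1, a; 0, 1] := rfl

theorem l_coe (a : F) : (l a : Matrix (Fin 2) (Fin 2) F) = !![1, 0; a, 1] := rfl

theorem wm_coe (a : F) (ha : a ≠ 0) :
    (wm a ha : Matrix (Fin 2) (Fin 2) F) = !![0, a; -a⁻¹, 0] := rfl

theorem u_add (a b : F) : u (a + b) = u a * u b := Subtype.ext <| by
  rw [coe_mul, u_coe, u_coe, u_coe]
  ext i j; fin_cases i <;> fin_cases j <;> simp [add_comm]

theorem l_add (a b : F) : l (a + b) = l a * l b := Subtype.ext <| by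
  rw [coe_mul, l_coe, l_coe, l_coe]
  ext i j; fin_cases i <;> fin_cases j <;> simp

theorem u_zero : u (0 : F) = 1 := Subtype.ext <| by
  rw [u_coe]; ext i j; fin_cases i <;> fin_cases j <;> simp

theorem l_zero : l (0 : F) = 1 := Subtype.ext <| by
  rw [l_coe]; ext i j; fin_cases i <;> fin_cases j <;> simp

theorem u_inv (a : F) : (u a)⁻¹ = u (-a) :=
  inv_eq_of_mul_eq_one_right (by rw [← u_add, add_neg_cancel, u_zero])

theorem wm_eq (a : F) (ha : a ≠ 0) : wm a ha = u a * l (-a⁻¹) * u a := Subtype.ext <| by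
  rw [coe_mul, coe_mul, u_coe, l_coe, wm_coe]
  ext i j; fin_cases i <;> fin_cases j <;> simp [ha]

theorem wm_conj (a : F) (ha : a ≠ 0) (b : F) :
    wm a ha * u b * (wm a ha)⁻¹ = l (-(b / a ^ 2)) := by
  rw [mul_inv_eq_iff_eq_mul]
  refine Subtype.ext ?_
  rw [coe_mul, coe_mul, u_coe, l_coe, wm_coe]
  ext i j; fin_cases i <;> fin_cases j <;> simp
  field_simp

/-- Two elements have equal images iff they differ by a sign. -/
theorem q2_eq_iff {x y : S2 F} : q2 F x = q2 F y ↔
    (y : Matrix (Fin 2) (Fin 2) F) = x ∨ (y : Matrix (Fin 2) (Fin 2) F) = -(x : Matrix _ _ F) := by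
  rw [QuotientGroup.mk'_apply, QuotientGroup.mk'_apply, QuotientGroup.eq, mem_center_iff]
  constructor
  · rintro ⟨c, hc, he⟩
    have hy : (y : Matrix (Fin 2) (Fin 2) F) = c • (x : Matrix (Fin 2) (Fin 2) F) := by
      have h2 : (x : Matrix (Fin 2) (Fin 2) F) * scalar (Fin 2) c = y := by
        rw [he, ← coe_mul, mul_inv_cancel_left]
      rw [← h2]; ext i j; simp [Matrix.scalar, mul_comm]
    rcases mul_self_eq_one_iff.1 (by simpa [sq] using hc : c * c = 1) with rfl | rfl
    · exact Or.inl (by rw [hy, one_smul])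
    · exact Or.inr (by rw [hy, neg_one_smul])
  · have hinv : ((x⁻¹ : S2 F) : Matrix (Fin 2) (Fin 2) F) * x = 1 := by
      rw [← coe_mul, inv_mul_cancel, coe_one]
    rintro (h | h)
    · exact ⟨1, by simp, by rw [coe_mul, h, hinv, map_one]⟩
    · refine ⟨-1, by simp, ?_⟩
      rw [coe_mul, h, mul_neg, hinv, map_neg, map_one]

/-- Homomorphisms agreeing on the unipotent elements are equal. -/
theorem hom_ext {H : Type*} [Group H] {f g : S2 F →* H} (hu : ∀ a, f (u a) = g (u a))
    (hl : ∀ a, f (l a) = g (l a)) : f = g := by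
  refine MonoidHom.ext fun x => ?_
  have hw : ∀ (a : F) (ha : a ≠ 0), f (wm a ha) = g (wm a ha) := fun a ha => by
    rw [wm_eq, map_mul, map_mul, map_mul, map_mul, hu, hl]
  refine diagonal_transvection_induction' (fun x => f x = g x) x (fun i j hij c hc => ?_)
    (fun i j hij c => ?_) (fun a b ha hb => by rw [map_mul, map_mul, ha, hb])
  · have key : ∀ (c : F) (hc : c ≠ 0),
        mk c 0 0 c⁻¹ (by simp [hc]) = wm c hc * wm (-1) (neg_ne_zero.2 one_ne_zero) := by
      intro c hc
      refine Subtype.ext ?_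
      rw [coe_mul, wm_coe, wm_coe]
      ext a b; fin_cases a <;> fin_cases b <;> simp [mk]
    have hd : ∃ (d : F) (hd : d ≠ 0), diag2n hij c hc = mk d 0 0 d⁻¹ (by simp [hd]) := by
      fin_cases i <;> fin_cases j
      · exact absurd rfl hij
      · exact ⟨c, hc, Subtype.ext (by
          ext a b; fin_cases a <;> fin_cases b <;> simp [mk, diag2n_coe])⟩
      · exact ⟨c⁻¹, inv_ne_zero hc, Subtype.ext (by
          ext a b; fin_cases a <;> fin_cases b <;> simp [mk, diag2n_coe])⟩
      · exact absurd rfl hij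
    obtain ⟨d, hd, e⟩ := hd
    rw [e, key d hd, map_mul, map_mul, hw, hw]
  · fin_cases i <;> fin_cases j
    · exact absurd rfl hij
    · rw [show Matrix.SpecialLinearGroup.transvection hij c = u c from Subtype.ext (by
        ext a b; fin_cases a <;> fin_cases b <;> simp [u, mk, transvection_coe])]
      exact hu c
    · rw [show Matrix.SpecialLinearGroup.transvection hij c = l c from Subtype.ext (by
        ext a b; fin_cases a <;> fin_cases b <;> simp [l, mk, transvection_coe])]
      exact hl c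
    · exact absurd rfl hij

/-- Conjugation by `M` after the field automorphism `σ`. -/
def semi (M : Matrix (Fin 2) (Fin 2) F) (hM : M.det ≠ 0) (σ : F ≃+* F) : S2 F →* S2 F where
  toFun x := ⟨M * (x : Matrix (Fin 2) (Fin 2) F).map σ * M⁻¹, by
    have h : ((x : Matrix (Fin 2) (Fin 2) F).map σ).det = 1 := by
      have := (RingHom.map_det (σ : F →+* F) (x : Matrix (Fin 2) (Fin 2) F)).symm
      rwa [x.2, map_one] at this
    rw [det_mul, det_mul, h, mul_one, det_nonsing_inv, Ring.inverse_eq_inv', mul_inv_cancel₀ hM]⟩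
  map_one' := Subtype.ext (by
    show M * _ * M⁻¹ = 1
    rw [coe_one, Matrix.map_one _ (map_zero σ) (map_one σ), mul_one,
      Matrix.mul_nonsing_inv _ (isUnit_iff_ne_zero.2 hM)])
  map_mul' x y := Subtype.ext (by
    show M * _ * M⁻¹ = (M * _ * M⁻¹) * (M * _ * M⁻¹)
    rw [coe_mul, Matrix.map_mul]
    simp only [Matrix.mul_assoc, Matrix.nonsing_inv_mul_cancel_left _ _ (isUnit_iff_ne_zero.2 hM)])

theorem semi_coe (M : Matrix (Fin 2) (Fin 2) F) (hM : M.det ≠ 0) (σ : F ≃+* F) (x : S2 F) :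
    (semi M hM σ x : Matrix (Fin 2) (Fin 2) F) =
      M * (x : Matrix (Fin 2) (Fin 2) F).map σ * M⁻¹ := rfl

variable [Finite F]

/-- The image of the upper unipotent elements. -/
def R (F : Type) [Field F] [Finite F] : Subgroup (P2 F) :=
  (Linear.R0 : Subgroup (S2 F)).map (q2 F)

theorem u_mem_R0 (a : F) : u a ∈ (Linear.R0 : Subgroup (S2 F)) := by
  intro i hi j
  fin_cases i
  · exact absurd rfl hi
  · fin_cases j <;> simp [u, mk]

theorem mem_R0 {x : S2 F} (h : x ∈ (Linear.R0 : Subgroup (S2 F))) : x = u (x 0 1) := by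
  have h10 : x 1 0 = 0 := by simpa using h 1 (by simp) 0
  have h11 : x 1 1 = 1 := by simpa using h 1 (by simp) 1
  have h00 : x 0 0 = 1 := by
    have := x.2
    rw [Matrix.det_fin_two, h10, h11] at this
    simpa using this
  refine Subtype.ext ?_
  rw [u_coe]
  ext i j; fin_cases i <;> fin_cases j
  · exact h00
  · rfl
  · exact h10
  · exact h11

theorem mem_R_iff {y : P2 F} : y ∈ R F ↔ ∃ a, y = q2 F (u a) := by
  constructor
  · rintro ⟨x, hx, rfl⟩; exact ⟨x 0 1, by rw [← mem_R0 hx]⟩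
  · rintro ⟨a, rfl⟩; exact ⟨u a, u_mem_R0 a, rfl⟩

theorem two_ne_zero' {r : ℕ} [Fact r.Prime] [CharP F r] (hr : r ≠ 2) : (2 : F) ≠ 0 := by
  intro h
  have : ((2 : ℕ) : F) = 0 := by simpa using h
  exact hr ((Nat.prime_dvd_prime_iff_eq Fact.out Nat.prime_two).1
    ((CharP.cast_eq_zero_iff F r 2).1 this))

variable (h2 : (2 : F) ≠ 0)

include h2 in
theorem neg_one_ne : (-1 : F) ≠ 1 := fun h => h2 (by
  have e : (1 : F) + 1 = 0 := by nth_rewrite 2 [← h]; ring
  rw [← one_add_one_eq_two]; exact e)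

include h2 in
theorem q2_u_inj {a b : F} (h : q2 F (u a) = q2 F (u b)) : a = b := by
  rcases q2_eq_iff.1 h with e | e
  · simpa [u_coe] using (congrFun (congrFun e 0) 1).symm
  · have := congrFun (congrFun e 0) 0
    simp [u_coe] at this
    exact absurd this.symm (neg_one_ne h2)

include h2 in
theorem q2_l_inj {a b : F} (h : q2 F (l a) = q2 F (l b)) : a = b := by
  rcases q2_eq_iff.1 h with e | e
  · simpa [l_coe] using (congrFun (congrFun e 1) 0).symm
  · have := congrFun (congrFun e 0) 0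
    simp [l_coe] at this
    exact absurd this.symm (neg_one_ne h2)

/-- Elements fixing the line through the first basis vector normalise `R`. -/
theorem cj_R_le {x : S2 F} (h : x 1 0 = 0) : cj (q2 F x) (R F) = R F := by
  have key : ∀ y : S2 F, y 1 0 = 0 → cj (q2 F y) (R F) ≤ R F := by
    intro y hy z hz
    rw [mem_cj] at hz
    have h' := Linear.normalizes_R0 (m := 0) (g := y) (fun i hi => by
      fin_cases i
      · exact absurd rfl hi
      · exact hy) _ hz
    show z ∈ (Linear.R0 : Subgroup (S2 F)).map (q2 F)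
    rw [show z = q2 F y * ((q2 F y)⁻¹ * z * q2 F y) * (q2 F y)⁻¹ by group]
    exact h'
  refine le_antisymm (key x h) ?_
  have h' : (x⁻¹ : S2 F) 1 0 = 0 := by rw [coe_inv, Matrix.adjugate_fin_two]; simp [h]
  have := (cj (q2 F x)).monotone (key x⁻¹ h')
  rwa [← cj_mul, map_inv, mul_inv_cancel, cj_one] at this

variable {r : ℕ} [Fact r.Prime] [CharP F r]

include h2 in
/-- The image of the upper unipotent group is a Sylow `r`-subgroup. -/
theorem isSylow_R : ∃ S : Sylow r (P2 F), (S : Subgroup (P2 F)) = R F := by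
  have hR : IsPGroup r (R F) := ((Linear.Q_pgroup r).to_le Linear.R0_le_Q).map _
  obtain ⟨S, hS⟩ := hR.exists_le_sylow
  refine ⟨S, le_antisymm ?_ hS⟩
  by_contra hne
  set R' := (R F).subgroupOf (S : Subgroup (P2 F)) with hR'
  have hlt : R' < ⊤ := lt_top_iff_ne_top.2 fun e => hne (Subgroup.subgroupOf_eq_top.1 e)
  have : Group.IsNilpotent (S : Subgroup (P2 F)) := S.isPGroup'.isNilpotent
  obtain ⟨g, hgN, hgR⟩ :=
    SetLike.exists_of_lt (Group.normalizerCondition_of_isNilpotent R' hlt)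
  obtain ⟨x, hx⟩ := QuotientGroup.mk'_surjective _ (g : P2 F)
  have hm : q2 F (x * u 1 * x⁻¹) ∈ R F := by
    have h1 : (⟨q2 F (u 1), hS (mem_R_iff.2 ⟨1, rfl⟩)⟩ : (S : Subgroup (P2 F))) ∈ R' :=
      mem_R_iff.2 ⟨1, rfl⟩
    have h := (Subgroup.mem_normalizer_iff.1 hgN _).1 h1
    rw [map_mul, map_mul, map_inv, hx]
    exact h
  have hxi : ((x⁻¹ : S2 F) : Matrix (Fin 2) (Fin 2) F) = !![x 1 1, -x 0 1; -x 1 0, x 0 0] := by
    rw [coe_inv, Matrix.adjugate_fin_two]
  have h10 : x 1 0 = 0 := by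
    obtain ⟨a, ha⟩ := mem_R_iff.1 hm
    rcases q2_eq_iff.1 ha with e | e <;>
    · have := congrFun (congrFun e 1) 0
      rw [coe_mul, coe_mul, hxi, u_coe, u_coe] at this
      simp [Matrix.mul_apply, Fin.sum_univ_two] at this
      first
        | exact mul_self_eq_zero.1 (by linear_combination this)
        | exact mul_self_eq_zero.1 (by linear_combination (-1 : F) * this)
  have hdet : x 0 0 * x 1 1 = 1 := by
    have := x.2
    rwa [Matrix.det_fin_two, h10, mul_zero, sub_zero] at this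
  obtain ⟨k, hk⟩ := S.isPGroup' g
  have hk' : q2 F (x ^ r ^ k) = q2 F 1 := by
    rw [map_pow, hx, map_one, ← Subgroup.coe_pow, hk, Subgroup.coe_one]
  have hpow : ∀ n : ℕ, ((x : Matrix (Fin 2) (Fin 2) F) ^ n) 1 0 = 0 ∧
      ((x : Matrix (Fin 2) (Fin 2) F) ^ n) 0 0 = x 0 0 ^ n := by
    intro n
    induction n with
    | zero => simp
    | succ n ih =>
      rw [pow_succ]
      simp [Matrix.mul_apply, Fin.sum_univ_two, h10, ih.1, ih.2, pow_succ]
  have h00 : x 0 0 = 1 ∨ x 0 0 = -1 := by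
    rw [← mul_self_eq_one_iff]
    refine frobenius_inj F r |>.iterate k ?_
    have e1 : x 0 0 ^ r ^ k = 1 ∨ x 0 0 ^ r ^ k = -1 := by
      rw [← (hpow _).2]
      rcases q2_eq_iff.1 hk' with e | e
      · exact Or.inl (by simpa using (congrFun (congrFun e 0) 0).symm)
      · refine Or.inr ?_
        have := congrFun (congrFun e 0) 0
        simp at this
        exact (neg_eq_iff_eq_neg).1 this.symm
    simp only [iterate_frobenius, mul_pow, one_pow]
    rcases e1 with e | e <;> rw [e] <;> ring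
  refine hgR ?_
  show (g : P2 F) ∈ R F
  rw [← hx, mem_R_iff]
  rcases h00 with h | h
  · refine ⟨x 0 1, congrArg _ (Subtype.ext ?_)⟩
    rw [h, one_mul] at hdet
    rw [u_coe]
    ext i j; fin_cases i <;> fin_cases j <;> simp [h, h10, hdet]
  · refine ⟨-x 0 1, q2_eq_iff.2 (Or.inr ?_)⟩
    rw [h, neg_one_mul, neg_eq_iff_eq_neg] at hdet
    rw [u_coe]
    ext i j; fin_cases i <;> fin_cases j <;> simp [h, h10, hdet]

include h2 in
/-- An automorphism fixing both unipotent groups is monomial. -/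
theorem exists_semi_of_fixes (γ : MulAut (P2 F)) (hu : ∀ a, ∃ b, γ (q2 F (u a)) = q2 F (u b))
    (hl : ∀ a, ∃ b, γ (q2 F (l a)) = q2 F (l b)) :
    ∃ (lam : F) (σ : F ≃+* F), lam ≠ 0 ∧
      (∀ a, γ (q2 F (u a)) = q2 F (u (lam * σ a))) ∧
        ∀ a, γ (q2 F (l a)) = q2 F (l (σ a / lam)) := by
  choose φ hφ using hu
  choose ψ hψ using hl
  have hadd : ∀ a b, φ (a + b) = φ a + φ b := fun a b => q2_u_inj h2 (by
    rw [← hφ, u_add, u_add, map_mul, map_mul, map_mul, hφ, hφ])
  have hψ0 : ψ 0 = 0 := q2_l_inj h2 (by rw [← hψ, l_zero, map_one, map_one])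
  have hψneg : ∀ a, ψ (-a) = -ψ a := fun a => eq_neg_of_add_eq_zero_left (q2_l_inj h2 (by
    rw [l_add, map_mul, ← hψ, ← hψ, ← map_mul, ← map_mul, ← l_add, neg_add_cancel, l_zero,
      map_one, map_one]))
  have hφinj : Function.Injective φ := fun a b e => q2_u_inj h2 (γ.injective (by rw [hφ, hφ, e]))
  have hφ0 : φ 0 = 0 := by simpa using hadd 0 0
  have hφne : ∀ a, a ≠ 0 → φ a ≠ 0 := fun a ha e => ha (hφinj (e.trans hφ0.symm))
  -- the relation from the Weyl elements
  have key : ∀ a, a ≠ 0 → ∀ b, b ≠ 0 → ψ (b / a ^ 2) = φ b / φ a ^ 2 := by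
    intro a ha b hb
    set x := φ a with hx
    set y := φ b with hy
    set c := ψ (-a⁻¹) with hc
    have hX : γ (q2 F (wm a ha)) = q2 F (u x * l c * u x) := by
      rw [wm_eq]
      simp only [map_mul, hφ, hψ, ← hx, ← hc]
    have e : q2 F ((u x * l c * u x) * u y) =
        q2 F (l (ψ (-(b / a ^ 2))) * (u x * l c * u x)) := by
      rw [map_mul, map_mul (q2 F) (l _), ← hX, ← hψ, ← wm_conj a ha b, map_mul, map_mul, map_inv,
        map_mul, map_mul, map_inv, hφ, ← hy, inv_mul_cancel_right]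
    have hy0 : y ≠ 0 := hφne b hb
    have hx0 : x ≠ 0 := hφne a ha
    rcases q2_eq_iff.1 e with e | e
    · have e1 := congrFun (congrFun e 0) 1
      have e2 := congrFun (congrFun e 1) 1
      simp [Matrix.mul_apply, Fin.sum_univ_two, u_coe, l_coe] at e1 e2
      have h1 : 1 + x * c = 0 := e1.resolve_right hy0
      rw [hψneg] at e2
      have h3 : ψ (b / a ^ 2) * x ^ 2 = y := by
        linear_combination (-x) * e2 - (y + ψ (b / a ^ 2) * x ^ 2) * h1
      field_simp
      linear_combination h3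
    · exfalso
      have e0 := congrFun (congrFun e 0) 0
      have e3 := congrFun (congrFun e 1) 0
      simp [Matrix.mul_apply, Fin.sum_univ_two, u_coe, l_coe] at e0 e3
      have hp : 1 + x * c = 0 := by
        have : (2 : F) * (1 + x * c) = 0 := by linear_combination e0
        exact (mul_eq_zero.1 this).resolve_left h2
      have hc0 : c ≠ 0 := fun h0 => by simp [h0] at hp
      have : (2 : F) * c = 0 := by linear_combination e3 - ψ (-(b / a ^ 2)) * hp
      exact hc0 ((mul_eq_zero.1 this).resolve_left h2)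
  have hlam : φ 1 ≠ 0 := hφne 1 one_ne_zero
  set χ := fun a => φ a / φ 1 with hχ
  have hsq : ∀ b a, χ (b * a ^ 2) = χ b * χ a ^ 2 := by
    intro b a
    by_cases ha : a = 0
    · simp [hχ, ha, hφ0]
    by_cases hb : b = 0
    · simp [hχ, hb, hφ0]
    have hba : b * a ^ 2 ≠ 0 := mul_ne_zero hb (pow_ne_zero 2 ha)
    have k1 := key a ha _ hba
    have k2 := key 1 one_ne_zero b hb
    rw [mul_div_cancel_right₀ _ (pow_ne_zero 2 ha)] at k1
    rw [one_pow, div_one, k1] at k2
    have := hφne a ha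
    simp only [hχ]
    field_simp at k2 ⊢
    linear_combination k2
  have hmul : ∀ a b, χ (a * b) = χ a * χ b := by
    intro a b
    have hχadd : ∀ a b, χ (a + b) = χ a + χ b := fun a b => by simp only [hχ, hadd, add_div]
    have hχ1 : χ 1 = 1 := div_self hlam
    have e := hsq a (b + 1)
    rw [show a * (b + 1) ^ 2 = a * b ^ 2 + ((a * b + a * b) + a) by ring, hχadd, hχadd, hχadd,
      hsq, hχadd, hχ1] at e
    have : (2 : F) * (χ (a * b) - χ a * χ b) = 0 := by linear_combination e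
    exact sub_eq_zero.1 ((mul_eq_zero.1 this).resolve_left h2)
  let f : F →+* F :=
    { toFun := χ
      map_one' := div_self hlam
      map_mul' := hmul
      map_zero' := by simp [hχ, hφ0]
      map_add' := fun a b => by simp only [hχ, hadd, add_div] }
  let σ : F ≃+* F := RingEquiv.ofBijective f (Finite.injective_iff_bijective.1 f.injective)
  have hσ : ∀ a, σ a = φ a / φ 1 := fun a => rfl
  refine ⟨φ 1, σ, hlam, fun a => by rw [hφ, hσ, mul_div_cancel₀ _ hlam], fun a => ?_⟩
  rw [hψ, hσ]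
  congr 2
  by_cases ha : a = 0
  · subst ha; simp [hψ0, hφ0]
  · have := key 1 one_ne_zero a ha
    rw [one_pow, div_one] at this
    rw [this]; field_simp

include h2 in
/-- **The automorphisms of `PSL(2, F)`.** -/
theorem exists_semi (r : ℕ) [Fact r.Prime] [CharP F r] (α : MulAut (P2 F)) :
    ∃ (M : Matrix (Fin 2) (Fin 2) F) (hM : M.det ≠ 0) (σ : F ≃+* F),
      ∀ x, α (q2 F x) = q2 F (semi M hM σ x) := by
  obtain ⟨S, hS⟩ := isSylow_R h2 (r := r)
  -- move the image of `R` back
  have hp : IsPGroup r ((R F).map α.toMonoidHom) :=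
    (((Linear.Q_pgroup r).to_le Linear.R0_le_Q).map _).map _
  obtain ⟨T, hT⟩ := hp.exists_le_sylow
  have hTeq : (T : Subgroup (P2 F)) = (R F).map α.toMonoidHom := by
    refine (Subgroup.eq_of_le_of_card_ge hT (le_of_eq ?_)).symm
    rw [← Nat.card_congr ((R F).equivMapOfInjective _ α.injective).toEquiv, ← hS]
    exact (T.card_eq_multiplicity).trans (S.card_eq_multiplicity).symm
  obtain ⟨g, hg⟩ := MulAction.exists_smul_eq (P2 F) S T
  have hgR : cj g (R F) = (R F).map α.toMonoidHom := by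
    rw [← hTeq, ← hg, ← hS]; rfl
  set β : MulAut (P2 F) := MulAut.conj g⁻¹ * α with hβ
  have hβR : ∀ a, β (q2 F (u a)) ∈ R F := fun a => by
    have : α (q2 F (u a)) ∈ cj g (R F) := hgR ▸ ⟨_, mem_R_iff.2 ⟨a, rfl⟩, rfl⟩
    rw [mem_cj] at this
    simpa [hβ, mul_assoc] using this
  obtain ⟨x, hx⟩ := QuotientGroup.mk'_surjective _ (β (q2 F (wm 1 one_ne_zero)))
  have hβR' : (R F).map β.toMonoidHom = R F := by
    refine Subgroup.eq_of_le_of_card_ge ?_ (le_of_eq ?_)
    · rintro _ ⟨y, hy, rfl⟩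
      obtain ⟨a, rfl⟩ := mem_R_iff.1 hy
      exact hβR a
    · exact Nat.card_congr ((R F).equivMapOfInjective _ β.injective).toEquiv
  have hβl : ∀ a, β (q2 F (l a)) ∈ cj (q2 F x) (R F) := by
    intro a
    rw [mem_cj]
    rw [hx, ← map_inv β, ← map_mul, ← map_mul]
    have : q2 F (wm 1 one_ne_zero) * q2 F (u (-a)) * (q2 F (wm 1 one_ne_zero))⁻¹ = q2 F (l a) := by
      rw [← map_inv, ← map_mul, ← map_mul, wm_conj]; simp
    rw [← this, show ∀ w v : P2 F, w⁻¹ * (w * v * w⁻¹) * w = v from fun w v => by group]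
    exact hβR (-a)
  have hx10 : x 1 0 ≠ 0 := by
    intro h0
    have hm := hβl 1
    rw [cj_R_le h0] at hm
    have : q2 F (l 1) ∈ R F := by
      rw [← hβR'] at hm
      obtain ⟨y, hy, e⟩ := hm
      rwa [← β.injective e]
    obtain ⟨b, hb⟩ := mem_R_iff.1 this
    rcases q2_eq_iff.1 hb with e | e <;>
    · have := congrFun (congrFun e 1) 0
      simp [u_coe, l_coe] at this
  set w := wm (1 : F) one_ne_zero with hw
  set t := x 0 0 / x 1 0 with ht
  have hxb : (w⁻¹ * (u t)⁻¹ * x : S2 F) 1 0 = 0 := by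
    rw [u_inv, coe_mul, coe_mul, coe_inv, Matrix.adjugate_fin_two]
    simp [hw, wm_coe, u_coe, Matrix.mul_apply, Fin.sum_univ_two, ht, hx10]
  set γ : MulAut (P2 F) := MulAut.conj (q2 F (u t))⁻¹ * β with hγ
  have hγu : ∀ a, ∃ b, γ (q2 F (u a)) = q2 F (u b) := fun a => by
    obtain ⟨c, hc⟩ := mem_R_iff.1 (hβR a)
    refine ⟨c, ?_⟩
    rw [hγ, MulAut.mul_apply, hc, MulAut.conj_apply, inv_inv, ← map_inv, ← map_mul, ← map_mul,
      u_inv, ← u_add, ← u_add]
    congr 2; ring
  have hγl : ∀ a, ∃ b, γ (q2 F (l a)) = q2 F (l b) := fun a => by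
    have hm := hβl a
    rw [show x = u t * w * (w⁻¹ * (u t)⁻¹ * x) by group, map_mul, cj_mul, cj_R_le hxb] at hm
    rw [mem_cj, mem_R_iff] at hm
    obtain ⟨c, hc⟩ := hm
    refine ⟨-c, ?_⟩
    rw [hγ, MulAut.mul_apply, MulAut.conj_apply, inv_inv]
    have e : β (q2 F (l a)) = q2 F (u t * w) * q2 F (u c) * (q2 F (u t * w))⁻¹ := by
      rw [← hc]; group
    rw [e, map_mul, show q2 F (l (-c)) = q2 F w * q2 F (u c) * (q2 F w)⁻¹ by
      rw [← map_inv, ← map_mul, ← map_mul, hw, wm_conj]; simp]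
    group
  obtain ⟨lam, σ, hlam, h1, h3⟩ := exists_semi_of_fixes h2 γ hγu hγl
  obtain ⟨y, hy⟩ := QuotientGroup.mk'_surjective _ g
  set z : S2 F := y * u t with hz
  have hαz : ∀ v, α (q2 F v) = q2 F z * γ (q2 F v) * (q2 F z)⁻¹ := fun v => by
    rw [hz, map_mul, show q2 F y = g from hy]
    simp only [hγ, hβ, MulAut.mul_apply, MulAut.conj_apply, inv_inv]
    group
  clear_value z
  set D : Matrix (Fin 2) (Fin 2) F := !![lam, 0; 0, 1] with hD
  have hDd : D.det ≠ 0 := by simp [hD, Matrix.det_fin_two, hlam]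
  have hM : ((z : Matrix (Fin 2) (Fin 2) F) * D).det ≠ 0 := by rw [det_mul, z.2, one_mul]; exact hDd
  refine ⟨_, hM, σ, fun v => ?_⟩
  have hzi : ((z : Matrix (Fin 2) (Fin 2) F))⁻¹ = ((z⁻¹ : S2 F) : Matrix (Fin 2) (Fin 2) F) :=
    Matrix.inv_eq_left_inv (by rw [← coe_mul, inv_mul_cancel, coe_one])
  have hfac : ∀ v, semi ((z : Matrix (Fin 2) (Fin 2) F) * D) hM σ v =
      z * semi D hDd σ v * z⁻¹ := fun v => Subtype.ext <| by
    rw [semi_coe, coe_mul, coe_mul, semi_coe, Matrix.mul_inv_rev, hzi]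
    simp only [Matrix.mul_assoc]
  have hext : γ.toMonoidHom.comp (q2 F) = (q2 F).comp (semi D hDd σ) := by
    refine hom_ext (fun a => ?_) fun a => ?_
    · show γ (q2 F (u a)) = q2 F (semi D hDd σ (u a))
      rw [h1]
      congr 1
      refine Subtype.ext ?_
      rw [semi_coe, u_coe, u_coe, Matrix.inv_def, Ring.inverse_eq_inv']
      ext i j
      fin_cases i <;> fin_cases j <;>
        simp [hD, Matrix.adjugate_fin_two, Matrix.det_fin_two, hlam, Matrix.mul_apply,
          Matrix.vecMul, dotProduct, Fin.sum_univ_two, mul_comm]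
    · show γ (q2 F (l a)) = q2 F (semi D hDd σ (l a))
      rw [h3]
      congr 1
      refine Subtype.ext ?_
      rw [semi_coe, l_coe, l_coe, Matrix.inv_def, Ring.inverse_eq_inv']
      ext i j
      fin_cases i <;> fin_cases j <;>
        simp [hD, Matrix.adjugate_fin_two, Matrix.det_fin_two, hlam, Matrix.mul_apply,
          Matrix.vecMul, dotProduct, Fin.sum_univ_two, div_eq_inv_mul, mul_comm]
  rw [hαz, hfac, map_mul, map_mul, map_inv]
  congr 2
  exact DFunLike.congr_fun hext v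

end PSL2

end Vale.Agent.P240
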